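import Crest.Agent.X212.Bor5.Defs

/-!
# Row 212, layer S (helper5): the leaves of the homology level argument, and the glue
-/

set_option autoImplicit false

open Module Function Filter

noncomputable section

namespace Crest.Agent.X212.Bor5

open Fam (Ch RBij)

/-! ### one object, one family -/

/-- API: towers under the maps -/
def FroStmt : Prop := ∀ (A B : Ob) (f : Fam A B),
  (f.Neg → ∀ κ, Ch A B κ → (∃ n : ℕ, B.d (f.t κ) = A.d (f.s κ) + f.dg κ + 2 * n) ∧
    ∀ x, f.F κ (A.e (f.s κ) x) = B.e (f.t κ) (x + f.dg κ)) ∧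
  (f.Pos → ∀ κ, ∀ y ∈ A.T, f.F κ y = 0)

/-- API: the value of `ρ` -/
def ValStmt : Prop := ∀ (X : Ob) (D : ZMod X.P → ℚ), FiniteDimensional K X.Red ∧ (X.Cg D → ∀ r : ℤ,
  X.Rho D r ↔ (r : ℚ) = finrank K X.Red + ∑ s, (D s - X.d s) / 2)

/-- API: isomorphisms -/
def IsoStmt : Prop := ∀ (X Y : Ob) (i : Iso X Y), (∀ s, Y.d (i.φ s) = X.d s) ∧
  finrank K X.Red = finrank K Y.Red ∧ ∀ s x, finrank K (Y.rd (i.φ s) x) = finrank K (X.rd s x)

/-! ### one triad -/

/-- RHO: additivity up to the rank of the third map -/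
def RhoStmt : Prop := ∀ (L M U : Ob) (f : Fam L M) (g : Fam M U) (h : Fam U L), Tri f g h →
  ∀ DL DM DU, f.Sharp DL DM → g.Sharp DM DU → L.Cg DL → M.Cg DM → U.Cg DU →
  ∀ a b c : ℤ, L.Rho DL a → M.Rho DM b → U.Rho DU c →
    FiniteDimensional K (LinearMap.range h.tot) ∧ a + c = b + 2 * finrank K (LinearMap.range h.tot)

/-- FOLD: the third map vanishes class by class -/
def FoldStmt : Prop := ∀ (L M U : Ob) (f : Fam L M) (g : Fam M U) (h : Fam U L), Tri f g h →
  L.Pure → f.Sharp L.d M.d → ∀ κ, h.F κ = 0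

/-- UP: the bottoms of `U` from those of `L` and `M` -/
def UpStmt : Prop := ∀ (L M U : Ob) (f : Fam L M) (g : Fam M U) (h : Fam U L), Tri f g h →
  L.Pure → ∀ DU, f.Sharp L.d M.d → g.Sharp M.d DU → (∀ s, DU s ≤ U.d s) → U.d = DU

/-- DOWN: the bottoms of `L` from those of `M` -/
def DownStmt : Prop := ∀ (L M U : Ob) (f : Fam L M) (g : Fam M U) (h : Fam U L), Tri f g h →
  h.tot = 0 → ∀ DL, f.Sharp DL M.d → (∀ s, L.d s ≤ DL s) → L.d = DL

/-- RED: if the towers are those of the model and one vertex is pure, the opposite map is a bijection of the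
reduced parts -/
def RedStmt : Prop := ∀ (L M U : Ob) (f : Fam L M) (g : Fam M U) (h : Fam U L), Tri f g h →
  f.Sharp L.d M.d → g.Sharp M.d U.d →
  (U.Pure → RBij f.tot) ∧ (L.Pure → RBij g.tot) ∧ (M.Pure → RBij h.tot)

/-- NVS -/
def NvsStmt : Prop := ∀ X : Ob, NVD X → ¬(X.Pure ∧ ∀ s, X.d s = 0)

/-! ### arithmetic of the model -/

/-- SHARP: Farey edges, shear edges, edges at the third vertex -/
def SharpStmt : Prop := ∀ S : Sys,
  (∀ p q p' q', Ed p q p' q' → (S.F p q p' q').Sharp (S.D p q) (S.D p' q')) ∧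
  ∀ p q p', Sl p q → 2 ≤ q → p' = p + q → ∀ w : Shr (S.F p q p' q) p q,
    (0 < p ∨ p' < 0 → (S.F p q p' q).Sharp (S.D p q) (S.D p' q)) ∧
    (0 < p' → w.b.G.Sharp (S.D p' q) w.Λ.d ∧ w.b.G.neg.Sharp (S.D p' q) w.Λ.d) ∧
    (p < 0 → w.a.G'.Sharp w.Λ.d (S.D p q) ∧ w.a.G'.neg.Sharp w.Λ.d (S.D p q))

/-- SUMS -/
def SumStmt : Prop := (∀ p q, Sl p q → 0 < p → Sd (-p) q = -Sd p q) ∧ (∀ p : ℤ, 3 ≤ p → Sd p 1 ≠ 0) ∧
  (∀ q j, D 1 q j = 0) ∧ ∀ (X : Ob) (p q : ℤ), X.P = p.natAbs → ∑ s, Dc X p q s = Sd p q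

/-! ### the system -/

/-- BND: congruence and one sided bounds -/
def BndStmt : Prop := ∀ (S : Sys) (p q : ℤ), Sl p q → (S.Y p q).Cg (S.D p q) ∧
  (0 < p → ∀ s, (S.Y p q).d s ≤ S.D p q s) ∧ (p < 0 → ∀ s, S.D p q s ≤ (S.Y p q).d s)

/-- POS: `ρ(p / q) = q R` on the positive side -/
def PosStmt : Prop := ∀ S : Sys, ∃ R : ℤ, ∀ p q, Sl p q → 0 < p → (S.Y p q).Rho (S.D p q) (q * R)

/-- PROP: propagation of the equality of correction terms -/
def PropStmt : Prop := ∀ (S : Sys) (p q p' q' : ℤ), Sl p q → Sl p' q' → 0 < p → p' < 0 → 0 < q → 0 < q' →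
  S.Del p q → S.Del p' q' → ∀ a b, Sl a b → S.Del a b

/-- what is known once all correction terms are those of the unknot -/
structure Sys.Good (S : Sys) (R : ℕ) : Prop where
  del : ∀ p q, Sl p q → S.Del p q
  dim : ∀ p q, Sl p q → (finrank K (S.Y p q).Red : ℤ) = q * R
  bij : ∀ p q p', Sl p q → 1 ≤ q → p' = p + q → p' ≠ 0 → RBij (S.F p q p' q).tot

/-- ALL -/
def AllStmt : Prop := ∀ S : Sys, (∀ p q, Sl p q → S.Del p q) → ∃ R, S.Good R

/-- KILL (Frobenius, large slopes, two sums) -/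
def KillStmt : Prop := ∀ (S : Sys) (R : ℕ), S.Good R → ∀ p q, Sl p q → 2 ≤ p → 2 ≤ q →
  Iso (S.Y p q) (S.Y (-p) q) → Sd p q = 0 → R = 0

/-! ### glue -/

/-- the output of level one -/
structure Out (S : Sys) : Prop where
  same : ∀ p q q', Sl p q → Sl p q' → 0 < p → Iso (S.Y p q) (S.Y p q') → Sd p q = Sd p q' → q = q'
  opp : ∀ p q s, Sl p q → Sl p s → 0 < p → 0 < q → 0 < s → Iso (S.Y p q) (S.Y (-p) s) → Sd p q = -Sd p s →
    q = s ∧ (p = 1 ∨ p = 2 ∧ q = 1)

theorem Sl.neg {p q : ℤ} (h : Sl p q) : Sl (-p) q := ⟨neg_ne_zero.2 h.1, h.2.1, h.2.2.neg_left⟩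

theorem pure_iff (X : Ob) [FiniteDimensional K X.Red] : X.Pure ↔ finrank K X.Red = 0 := by
  rw [finrank_zero_iff, Ob.Pure, Submodule.Quotient.subsingleton_iff]

theorem sl14 : Sl 1 4 := ⟨one_ne_zero, by norm_num, isCoprime_one_left⟩

theorem out_of (hV : ValStmt) (hI : IsoStmt) (hS : SumStmt) (hB : BndStmt) (hP : PosStmt) (hPr : PropStmt)
    (hA : AllStmt) (hK : KillStmt) (S : Sys) (nv : S.NV) : Out S := by
  have sum : ∀ p q, Sl p q → ∑ s, S.D p q s = Sd p q := fun p q h => hS.2.2.2 _ p q (S.hP p q h)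
  refine ⟨fun p q q' h h' hp i e => ?_, fun p q s h h' hp hq hs i e => ?_⟩
  · obtain ⟨R, hR⟩ := hP S
    have val : ∀ p q, Sl p q → 0 < p → ((q * R : ℤ) : ℚ) =
        finrank K (S.Y p q).Red + (Sd p q - ∑ s, (S.Y p q).d s) / 2 := fun p q h hp => by
      rw [((hV _ _).2 (hB S p q h).1 _).1 (hR p q h hp), ← sum p q h, ← Finset.sum_sub_distrib, Finset.sum_div]
    have hR0 : R ≠ 0 := by
      rintro rfl
      have h1 := ((hV _ _).2 (hB S 1 4 sl14).1 _).1 (hR 1 4 sl14 one_pos)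
      have h2 : ∀ s, 0 ≤ (S.D 1 4 s - (S.Y 1 4).d s) / 2 := fun s => by
        have := (hB S 1 4 sl14).2.1 one_pos s
        linarith
      have h3 := Finset.sum_nonneg fun s (_ : s ∈ Finset.univ) => h2 s
      have h4 : (0 : ℚ) ≤ finrank K (S.Y 1 4).Red := Nat.cast_nonneg _
      rw [mul_zero, Int.cast_zero] at h1
      have := (hV (S.Y 1 4) (S.D 1 4)).1
      refine nv ⟨(pure_iff _).2 (by exact_mod_cast (by linarith : (finrank K (S.Y 1 4).Red : ℚ) = 0)), fun s => ?_⟩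
      have h5 := (Finset.sum_eq_zero_iff_of_nonneg fun s _ => h2 s).1 (by linarith) s (Finset.mem_univ s)
      have h6 : S.D 1 4 s = 0 := hS.2.2.1 _ _
      linarith
    have h1 := val p q h hp
    have h2 := val p q' h' hp
    rw [← (hI _ _ i).2.1, ← e, ← i.φ.sum_comp, Finset.sum_congr rfl fun s _ => (hI _ _ i).1 s, ← h1] at h2
    exact (mul_right_cancel₀ hR0 (by exact_mod_cast h2)).symm
  · have h'' := h'.neg
    have b1 := (hB S p q h).2.1 hp
    have b2 := (hB S (-p) s h'').2.2 (by omega)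
    have id := (hI _ _ i).1
    have e1 : ∑ t, (S.D p q t - S.D (-p) s (i.φ t)) = 0 := by
      rw [Finset.sum_sub_distrib, i.φ.sum_comp, sum p q h, sum _ s h'', hS.1 p s h' hp, e, sub_self]
    have e2 := (Finset.sum_eq_zero_iff_of_nonneg fun t _ => by
      have := b1 t; have := b2 (i.φ t); have := id t; linarith).1 e1
    have d1 : S.Del p q := funext fun t => by
      have := b1 t; have := b2 (i.φ t); have := id t; have := e2 t (Finset.mem_univ t); linarith
    have d2 : S.Del (-p) s := funext fun t => by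
      obtain ⟨t, rfl⟩ := i.φ.surjective t
      have := b1 t; have := b2 (i.φ t); have := id t; have := e2 t (Finset.mem_univ t); linarith
    obtain ⟨R, hR⟩ := hA S (hPr S p q (-p) s h h'' hp (by omega) hq hs d1 d2)
    have hR0 : R ≠ 0 := by
      rintro rfl
      have := (hV (S.Y 1 4) (S.D 1 4)).1
      refine nv ⟨(pure_iff _).2 (by simpa using hR.dim 1 4 sl14), fun t => ?_⟩
      rw [hR.del 1 4 sl14]
      exact hS.2.2.1 _ _
    obtain rfl : q = s := by
      have h1 := hR.dim p q h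
      rw [(hI _ _ i).2.1, hR.dim _ s h''] at h1
      exact (mul_right_cancel₀ (by exact_mod_cast hR0) h1).symm
    have e0 : Sd p q = 0 := by linarith
    refine ⟨rfl, ?_⟩
    by_contra hn
    rcases lt_or_ge q 2 with a | a
    · obtain rfl : q = 1 := by omega
      exact hS.2.1 p (by omega) e0
    · exact hR0 (hK S R hR p q h (by omega) a i e0)

end Crest.Agent.X212.Bor5
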