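import Crest.Agent.X212.Lab56.Cls
import Crest.Agent.X212.Lab56.Gd
import Crest.Agent.X212.Win22.Ob
import Crest.Agent.X212.Dr59.Lat
import Crest.Agent.X212.Orx52.Rod
import Crest.Agent.X212.Rod53.Lens
import Crest.Agent.X212.M.Band

/-!
# Row 212, layer S (helper5): the interface of the Floer theory

`Q3` : rational homology spheres, `Cob A B` : cobordisms with `b₁ = 0`, `Cp B` : one outgoing end and a closed
form.  `Scene` : countably many of them.  `Th S` : groups, maps, classes of caps, and their laws.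
`Pent` : the data of the non-vanishing statement.  `ThStmt` : what the analysis has to prove.
-/

set_option autoImplicit false
set_option linter.unusedSectionVars false
set_option linter.dupNamespace false

open Set Filter Topology Function Module
open scoped ContDiff Manifold
open Crest.Agent.R208 Crest.Agent.R208.F
open Crest.Agent.X212.Dr59 (Cs Cl HZ Lat ip pm)
open Crest.Agent.X212.Int54 (Ori SameOn)
open Crest.Agent.X212.Cyl58 (TP TIso cylT)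
open Crest.Agent.X212.Orx52 (Pos TPos OriOn pr oR oT oX)
open Crest.Agent.X212.Rod53 (E4 Z2 IT S3' Tb Fl Loc Uni PM Jv dt sphD)
open Crest.Agent.X212.Lab56 (Cls Dat)
open Crest.Agent.X212.Line51 (Ln)
open Crest.Agent.X212.M (Mf)
open Crest.Agent.X212.Win22 (Hf)

noncomputable section

namespace Crest.Agent.X212.Bor5.T

/-! ### classes -/

section Cls

variable {E : Type} [NormedAddCommGroup E] [NormedSpace ℝ E] [FiniteDimensional ℝ E]
  {H : Type} [TopologicalSpace H] {I : ModelWithCorners ℝ E H}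
  {M : Type} [TopologicalSpace M] [ChartedSpace H M] [IsManifold I ∞ M]
  {E' : Type} [NormedAddCommGroup E'] [NormedSpace ℝ E'] [FiniteDimensional ℝ E']
  {H' : Type} [TopologicalSpace H'] {I' : ModelWithCorners ℝ E' H'}
  {N : Type} [TopologicalSpace N] [ChartedSpace H' N] [IsManifold I' ∞ N]

/-- on `W` the class `d` pulls back to the class `s` -/
def Pb (f : N → M) (W : Set N) (d : Cls I (univ : Set M)) (s : Cls I' (univ : Set N)) : Prop :=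
  ∃ hf : ∀ y ∈ W, IsLocalDiffeomorphAt I' I ∞ f y, d.pull hf (mapsTo_univ _ _) = s.res (subset_univ W)

/-- `c` is the curvature form of a connection on the determinant line of `d` -/
def Cur (d : Cls I (univ : Set M)) (c : M → Ext E) : Prop :=
  ∃ D : Dat I (univ : Set M), (Quot.mk _ D : Cls I univ) = d ∧
    ∃ a, Ln.On I ⟨D.d.det, a⟩ univ ∧ c = Ln.F I ⟨D.d.det, a⟩

end Cls

/-- two ends agree up to a translation -/
def Ag {Y Z : Type} (l : Filter ℝ) (f g : Y × ℝ → Z) : Prop := ∃ δ : ℝ, ∀ᶠ t in l, ∀ y, f (y, t) = g (y, t + δ)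

/-! ### manifolds -/

/-- a closed connected oriented three-manifold -/
structure O3 : Type 1 where
  Y : Mf 3
  [cpt : CompactSpace Y.M]
  [con : ConnectedSpace Y.M]
  o : Y.M → Ext Y.E
  ori : Ori Y.I o

attribute [instance] O3.cpt O3.con

/-- the cylinder -/
abbrev O3.cyl (A : O3) : TP (EuclideanSpace ℝ (Fin 3) × ℝ) := cylT A.Y.pc

/-- the classes: those of the cylinder -/
abbrev O3.L (A : O3) : Type := Cls A.cyl.P.I (univ : Set A.cyl.P.M)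

/-- a rational homology sphere -/
structure Q3 : Type 1 extends O3 where
  h1 : HZ Y.I 1 (univ : Set Y.M)
  h2 : HZ Y.I 2 (univ : Set Y.M)
  fin : Finite toO3.L

/-- a spherical space form -/
structure Sph (A : O3) where
  π : S3' → A.Y.M
  ld : IsLocalDiffeomorph (𝓡 3) A.Y.I ∞ π
  surj : Surjective π
  fib : ∀ x y, π x = π y → ∃ g : E4 ≃ₗᵢ[ℝ] E4, sphD (n := 3) g x = y ∧ ∀ z, π (sphD (n := 3) g z) = π z

/-- a connected oriented four-manifold with a time function -/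
structure W4 : Type 1 where
  X : TP E4
  [mE : MeasurableSpace X.P.E]
  [bE : BorelSpace X.P.E]
  [ms : MeasurableSpace X.P.M]
  [bs : BorelSpace X.P.M]
  [con : ConnectedSpace X.P.M]
  o : X.P.M → Ext X.P.E
  ori : Ori X.P.I o

attribute [instance] W4.mE W4.bE W4.ms W4.bs W4.con

namespace W4

variable (W : W4)

/-- the points -/
abbrev M : Type := W.X.P.M

/-- the forms -/
abbrev Fm : Type := W.X.P.M → Ext W.X.P.E

/-- the classes -/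
abbrev L : Type := Cls W.X.P.I (univ : Set W.M)

/-- the square of a form -/
abbrev sq (e : W.Fm) : ℝ := ip W.X.P.I W.o e e

/-- no reducible solution, for any metric -/
def Ps (d : W.L) (η : W.Fm) : Prop := ∃ c, Cs W.X.P.I 2 univ c ∧ Cur d c ∧ 0 < W.sq (η - c)

/-- the same along a segment -/
def Seg (d : W.L) (η η' : W.Fm) : Prop := ∀ s ∈ Icc (0 : ℝ) 1, W.Ps d ((1 - s) • η + s • η')

/-- a positive diffeomorphism -/
structure Dif (W W' : W4) where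
  φ : W.M ≃ₘ^∞⟮W.X.P.I, W'.X.P.I⟯ W'.M
  pos : Pos W.X.P.I W'.X.P.I φ univ W.o W'.o

end W4

/-- a cobordism with `b₁ = 0` -/
structure Cob (A B : Q3) : Type 1 extends W4 where
  h1 : HZ X.P.I 1 (univ : Set X.P.M)
  a : ℝ
  b : ℝ
  ki : TIso A.cyl X (Iio a)
  ko : TIso B.cyl X (Ioi b)
  pi : TPos ki (pr A.o oR) o
  po : TPos ko (pr B.o oR) o

/-- the class on the incoming end -/
def Cob.In {A B : Q3} (C : Cob A B) (d : C.L) (s : A.L) : Prop := Pb C.ki (A.cyl.τ ⁻¹' Iio C.a) d s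

/-- the class on the outgoing end -/
def Cob.Out {A B : Q3} (C : Cob A B) (d : C.L) (t : B.L) : Prop := Pb C.ko (B.cyl.τ ⁻¹' Ioi C.b) d t

/-- one outgoing end and a closed form with compact support -/
structure Cp (B : Q3) : Type 1 extends W4 where
  lo : ∃ s, ∀ x, s ≤ X.τ x
  b : ℝ
  ko : TIso B.cyl X (Ioi b)
  po : TPos ko (pr B.o oR) o
  η : X.P.M → Ext X.P.E
  cs : Cs X.P.I 2 univ η

/-- `W` is the union of `W₁` and `W₂` along the ends `ko`, `ki` -/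
structure Gl {B : O3} (W₁ W₂ W : W4) {b a : ℝ} (ko : TIso B.cyl W₁.X (Ioi b)) (ki : TIso B.cyl W₂.X (Iio a)) where
  δ₁ : ℝ
  δ₂ : ℝ
  α : ℝ
  β : ℝ
  lt : α < β
  hb : b + δ₁ ≤ α
  ha : β ≤ a + δ₂
  l : TIso (W₁.X.shift δ₁) W.X (Iio β)
  r : TIso (W₂.X.shift δ₂) W.X (Ioi α)
  pl : TPos l W₁.o W.o
  pr : TPos r W₂.o W.o
  ov : ∀ y, ∀ t ∈ Ioo α β, l (ko (y, t - δ₁)) = r (ki (y, t - δ₂))

namespace Gl

variable {B : O3} {W₁ W₂ W : W4} {b a : ℝ} {ko : TIso B.cyl W₁.X (Ioi b)} {ki : TIso B.cyl W₂.X (Iio a)}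
  (g : Gl W₁ W₂ W ko ki)

/-- the left piece -/
def fl (x : W₁.M) : W.M := g.l x

/-- the right piece -/
def fr (x : W₂.M) : W.M := g.r x

/-- the classes on the two pieces -/
def Rs (d : W.L) (d₁ : W₁.L) (d₂ : W₂.L) : Prop :=
  Pb g.fl {x | W₁.X.τ x + g.δ₁ < g.β} d d₁ ∧ Pb g.fr {x | g.α < W₂.X.τ x + g.δ₂} d d₂

/-- the form `η` is `η₁` extended by zero -/
def Ext0 (η : W.Fm) (η₁ : W₁.Fm) : Prop :=
  (∀ x : W₁.M, W₁.X.τ x + g.δ₁ < g.β → pm W₁.X.P.I W.X.P.I g.fl η x = η₁ x) ∧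
    (∀ x : W₁.M, g.α < W₁.X.τ x + g.δ₁ → η₁ x = 0) ∧ ∀ x, g.α < W.X.τ x → η x = 0

end Gl

/-! ### rods -/

/-- a tube in a closed three-manifold, oriented off the core -/
structure Tub : Type 1 where
  N : Mf 3
  [cpt : CompactSpace N.M]
  T : Tb N.I N.M
  o : N.M → Ext N.E
  ori : OriOn N.I T.Ex o
  σ : ℤ
  hσ : σ = 1 ∨ σ = -1
  pos : Pos IT N.I T.τ {z | z.2 ≠ 0} ((σ : ℝ) • oT) o

attribute [instance] Tub.cpt

/-- the rod manifold -/
abbrev Tub.X (τ : Tub) (v : ℝ → Z2) : Type := Rod53.X τ.T v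

/-- `A` is the oriented filling of slope `a` -/
structure Fo (τ : Tub) (A : O3) (a : Z2) where
  a' : Z2
  hu : Uni a a'
  F : Fl τ.T a a' A.Y.I A.Y.M
  pos : Pos τ.N.I A.Y.I F.ie univ (pm τ.N.I τ.N.I Subtype.val τ.o) A.o

/-- the product structure over the rods of slope `a` -/
abbrev Fo.cy {τ : Tub} {A : O3} {a : Z2} (f : Fo τ A a) (v : ℝ → Z2) : A.Y.M × ℝ → τ.X v := f.F.cyf v f.hu

/-- `C` is the rod manifold of `v` -/
structure Rz {τ : Tub} {A B : Q3} {a b : Z2} (C : Cob A B) {v : ℝ → Z2} (hv : Loc v) (f : Fo τ A.toO3 a)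
    (g : Fo τ B.toO3 b) where
  φ : τ.X v ≃ₘ^∞⟮𝓡 4, C.X.P.I⟯ C.M
  pos : Pos (𝓡 4) C.X.P.I φ univ (oX hv τ.ori) C.o
  ki : Ag atBot (φ ∘ f.cy v) C.ki
  ko : Ag atTop (φ ∘ g.cy v) C.ko

/-- one vertex -/
def V1 (v : ℝ → Z2) (a b : Z2) (x : ℝ) : Prop := ∀ t, t ∈ Jv v a b x

/-- two vertices -/
def V2 (v : ℝ → Z2) (a b c : Z2) (x y : ℝ) : Prop :=
  x < y ∧ (∀ t < y, t ∈ Jv v a b x) ∧ ∀ t, x < t → t ∈ Jv v b c y

/-- the sphere over the rod `b` between `a` and `c` has square `-1`; invariant under `(a,b,c) ↦ (b,c,a)` -/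
def T3 (τ : Tub) (a b c : Z2) : Prop := ∃ a' c', PM a' a ∧ PM c' c ∧ a' + c' = b ∧ dt a' b = -τ.σ

/-- `C` is the handle from the slope `a` to the slope `b` -/
def Hnd {τ : Tub} {A B : Q3} {a b : Z2} (C : Cob A B) (f : Fo τ A.toO3 a) (g : Fo τ B.toO3 b) : Prop :=
  ∃ (v : ℝ → Z2) (x : ℝ) (hv : Loc v), V1 v a b x ∧ Nonempty (Rz C hv f g)

/-! ### the theory -/

/-- countably many objects, cobordisms and caps; `i0` is the sphere -/
structure Scene : Type 1 where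
  ι : Type
  [cι : Countable ι]
  ob : ι → Q3
  κ : ι → ι → Type
  [cκ : ∀ i j, Countable (κ i j)]
  cob : ∀ {i j}, κ i j → Cob (ob i) (ob j)
  γ : ι → Type
  [cγ : ∀ i, Countable (γ i)]
  cap : ∀ {i}, γ i → Cp (ob i)
  i0 : ι
  s0 : Sph (ob i0).toO3
  inj : Injective s0.π

attribute [instance] Scene.cι Scene.cκ Scene.cγ

/-- only towers, with bottoms `D` -/
def Pur {L : Type} (H : Hf L) (D : L → ℚ) : Prop :=
  (∀ s (k : ℕ), finrank K (H.gr s (D s + 2 * k)) = 1 ∧ ∀ y ∈ H.gr s (D s + 2 * k + 2), H.U y = 0 → y = 0) ∧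
    ∀ s x, (¬∃ k : ℕ, x = D s + 2 * k) → H.gr s x = ⊥

/-- the Floer theory of a scene -/
structure Th (S : Scene) : Type 1 where
  H : ∀ i, Hf (S.ob i).L
  F : ∀ {i j} (c : S.κ i j), (S.cob c).L → (H i).H →ₗ[K] (H j).H
  dg : ∀ {i j} (c : S.κ i j), (S.cob c).L → ℚ
  ξ : ∀ {i} (c : S.γ i), (S.cap c).L → (H i).H
  map : ∀ {i j} (c : S.κ i j) d s t x y, (S.cob c).In d s → (S.cob c).Out d t → y ∈ (H i).gr s x →
    F c d y ∈ (H j).gr t (x + dg c d)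
  off : ∀ {i j} (c : S.κ i j) d s s' x y, (S.cob c).In d s → s' ≠ s → y ∈ (H i).gr s' x → F c d y = 0
  U : ∀ {i j} (c : S.κ i j) d y, F c d ((H i).U y) = (H j).U (F c d y)
  fin : ∀ {i j} (c : S.κ i j) y, (support fun d => F c d y).Finite
  nat : ∀ {i j} (c c' : S.κ i j) (φ : W4.Dif (S.cob c).toW4 (S.cob c').toW4) d d',
    Ag atBot (φ.φ ∘ (S.cob c).ki) (S.cob c').ki → Ag atTop (φ.φ ∘ (S.cob c).ko) (S.cob c').ko →
    Pb φ.φ univ d' d → F c d = F c' d'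
  comp : ∀ {i j k} (c₁ : S.κ i j) (c₂ : S.κ j k) (c : S.κ i k)
    (g : Gl (S.cob c₁).toW4 (S.cob c₂).toW4 (S.cob c).toW4 (S.cob c₁).ko (S.cob c₂).ki) d d₁ d₂,
    Ag atBot (g.fl ∘ (S.cob c₁).ki) (S.cob c).ki → Ag atTop (g.fr ∘ (S.cob c₂).ko) (S.cob c).ko →
    g.Rs d d₁ d₂ → F c d = F c₂ d₂ ∘ₗ F c₁ d₁
  id : ∀ {i} (c : S.κ i i) (φ : (S.ob i).cyl.P.M ≃ₘ^∞⟮(S.ob i).cyl.P.I, (S.cob c).X.P.I⟯ (S.cob c).M) d s x y,
    Pos (S.ob i).cyl.P.I (S.cob c).X.P.I φ univ (pr (S.ob i).o oR) (S.cob c).o →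
    Ag atBot φ (S.cob c).ki → Ag atTop φ (S.cob c).ko → (S.cob c).In d s → y ∈ (H i).gr s x → F c d y = y
  deg : ∀ {i j} (c : S.κ i j) d {n : Type} [Fintype n] [DecidableEq n] (e : n → (S.cob c).Fm) (g : n → ℝ) Z c₀
    (x : ℚ), Lat (S.cob c).X.P.I (S.cob c).o univ Z e (Matrix.diagonal g) → Cs (S.cob c).X.P.I 2 univ c₀ →
    Cur d c₀ → 4 * (x : ℝ) = (S.cob c).sq c₀ / (4 * Real.pi ^ 2) - 2 * Fintype.card n -
      3 * ∑ a, (SignType.sign (g a) : ℝ) → dg c d = x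
  tn : ∀ {i j} (c : S.κ i j) d s {n : Type} [Fintype n] [DecidableEq n] (e : n → (S.cob c).Fm) (g : n → ℝ) Z,
    Lat (S.cob c).X.P.I (S.cob c).o univ Z e (Matrix.diagonal g) → (∀ a, g a < 0) → (S.cob c).In d s →
    ∃ N, ∀ x, N ≤ x → ∀ y ∈ (H i).gr s x, F c d y = 0 → y = 0
  tp : ∀ {i j} (c : S.κ i j) d e, Cs (S.cob c).X.P.I 2 univ e → 0 < (S.cob c).sq e →
    ∃ N, ∀ s x, N ≤ x → ∀ y ∈ (H i).gr s x, F c d y = 0
  psc : ∀ i, Nonempty (Sph (S.ob i).toO3) → ∃ D, Pur (H i) D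
  s3 : Pur (H S.i0) fun _ => 0
  /-- blow-up: classes that agree off the exceptional sphere and have the same degree -/
  bu : ∀ {i k} (c c' : S.κ i k) {τ : Tub} {a b e : Z2} {v v' : ℝ → Z2} {x y z : ℝ} (hv : Loc v) (hv' : Loc v')
    (f : Fo τ (S.ob i).toO3 a) (g : Fo τ (S.ob k).toO3 e) (r : Rz (S.cob c) hv f g) (r' : Rz (S.cob c') hv' f g)
    d d' (d₀ : Cls (𝓡 4) (univ : Set (τ.X v'))), T3 τ a b e → V2 v a b e x y → V1 v' a e z → z ∈ Icc x y →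
    (∀ t, t ∉ Icc x y → v' t = v t) → Pb r'.φ univ d' d₀ → Pb (r.φ ∘ τ.T.chgPD v' v) (τ.T.ag v' v) d d₀ →
    dg c d = dg c' d' → F c d = F c' d'
  triad : ∀ {i j k} (c₁ : S.κ i j) (c₂ : S.κ j k) (c₃ : S.κ k i) {τ : Tub} {a b e : Z2}
    (f : Fo τ (S.ob i).toO3 a) (g : Fo τ (S.ob j).toO3 b) (h : Fo τ (S.ob k).toO3 e), T3 τ a b e →
    Hnd (S.cob c₁) f g → Hnd (S.cob c₂) g h → Hnd (S.cob c₃) h f →
    Exact (fun y => ∑ᶠ d, F c₁ d y) fun y => ∑ᶠ d, F c₂ d y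
  natc : ∀ {i} (c c' : S.γ i) (φ : W4.Dif (S.cap c).toW4 (S.cap c').toW4) d d',
    Ag atTop (φ.φ ∘ (S.cap c).ko) (S.cap c').ko → Pb φ.φ univ d' d →
    (S.cap c).Seg d (S.cap c).η (pm (S.cap c).X.P.I (S.cap c').X.P.I φ.φ (S.cap c').η) → ξ c d = ξ c' d'
  compc : ∀ {j k} (c₁ : S.γ j) (c₂ : S.κ j k) (c : S.γ k)
    (g : Gl (S.cap c₁).toW4 (S.cob c₂).toW4 (S.cap c).toW4 (S.cap c₁).ko (S.cob c₂).ki) d d₁ d₂,
    Ag atTop (g.fr ∘ (S.cob c₂).ko) (S.cap c).ko → g.Rs d d₁ d₂ → g.Ext0 (S.cap c).η (S.cap c₁).η →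
    (S.cap c₁).Ps d₁ (S.cap c₁).η → (S.cap c).Ps d (S.cap c).η → ξ c d = F c₂ d₂ (ξ c₁ d₁)
  bnd : ∀ {i} (c : S.γ i) e, Cs (S.cap c).X.P.I 2 univ e → ∃ R : ℝ, ∀ d c₀, (S.cap c).Ps d (S.cap c).η →
    ξ c d ≠ 0 → Cur d c₀ → |ip (S.cap c).X.P.I (S.cap c).o c₀ e| ≤ R

/-! ### non-vanishing -/

/-- predicates on closed manifolds with a class and a closed form -/
abbrev Prd : Type 1 := ∀ W : W4, W.L → W.Fm → Prop

/-- symplectic manifolds have a point of `Q` -/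
def Taub (Q : Prd) : Prop := ∀ (W : W4) (w : W.Fm), CompactSpace W.M → Cl W.X.P.I 2 univ w →
  SameOn (w * w) W.o univ → ∃ (d : W.L) (c : W.Fm) (r : ℝ), r ≠ 0 ∧ Cur d c ∧ Q W d (c + r • w)

/-- a closed manifold `W` with a neck `Y`, the filling of slope `a`; the cap `C` is the left part of `W` followed by
the handle `a → b` -/
structure Pent (S : Scene) (Q : Prd) (R : ℝ) : Type 1 where
  W : W4
  cpt : CompactSpace W.M
  d : W.L
  c₀ : W.Fm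
  cv : Cur d c₀
  τ : Tub
  a : Z2
  b : Z2
  e : Z2
  t3 : T3 τ a b e
  Y : O3
  i : S.ι
  j : S.ι
  f : Fo τ Y a
  g : Fo τ (S.ob i).toO3 b
  h : Fo τ (S.ob j).toO3 e
  G : S.κ i j
  hd : Hnd (S.cob G) g h
  α : ℝ
  β : ℝ
  lt : α < β
  k : TIso Y.cyl W.X (Ioo α β)
  pk : TPos k (pr Y.o oR) W.o
  vL : W.Fm
  vR : W.Fm
  cL : Cs W.X.P.I 2 (W.X.τ ⁻¹' Iic α) vL
  cR : Cs W.X.P.I 2 (W.X.τ ⁻¹' Ici β) vR
  bL : R < W.sq vL
  bR : R < W.sq vR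
  η₁ : W.Fm
  q : Q W d η₁
  seg : W.Seg d η₁ (c₀ + vL + vR)
  C : S.γ i
  v : ℝ → Z2
  hv : Loc v
  x : ℝ
  hx : β ≤ x
  v1 : V1 v a b x
  l : TIso W.X (S.cap C).X (Iio β)
  r : TIso (τ.T.tp hv) (S.cap C).X (Ioi α)
  pl : TPos l W.o (S.cap C).o
  pr : TPos r (oX hv τ.ori) (S.cap C).o
  ov : ∀ y, ∀ t ∈ Ioo α β, l (k (y, t)) = r (f.cy v (y, t))
  ko : Ag atTop (r ∘ g.cy v) (S.cap C).ko
  η : ∀ p, W.X.τ p < β → pm W.X.P.I (S.cap C).X.P.I l (S.cap C).η p = (c₀ + vL) p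
  /-- `Y` is the zero filling of a knot exterior, the other two fillings have one class -/
  ea : a = (1, 0)
  eb : b = (1, 1)
  ee : e = (0, 1)
  cN : ConnectedSpace τ.N.M
  ϑ : τ.N.M → Circle
  gd : Lab56.Good τ.T ϑ (0, 1)
  li : Subsingleton (S.ob i).L
  lj : Subsingleton (S.ob j).L
  ev : v = Rod53.wd fun n => if n + 1 < 0 then (1, 0) else (1, 1)
  ex : x = -1
  h2 : β ≤ -2
  w : W.Fm
  cl : Cl W.X.P.I 2 univ w
  sy : SameOn (w * w) W.o univ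
  pL : 0 < W.sq vL
  pR : 0 < W.sq vR
  cη : Cs W.X.P.I 2 univ η₁
  /-- closed two-forms extend over the left part -/
  ext : ∀ b, Cl Y.Y.I 2 univ b → ∃ u : W.Fm, Cl W.X.P.I 2 (W.X.τ ⁻¹' Iio β) u ∧
    ∀ p : Y.cyl.P.M, p.2 ∈ Ioo α β → pm Y.cyl.P.I W.X.P.I k u p = pm Y.cyl.P.I Y.Y.I (fun q : Y.cyl.P.M => q.1) b p

/-- some extension of the class has a non-zero invariant -/
def Th.NV {S : Scene} (θ : Th S) {Q : Prd} {R : ℝ} (P : Pent S Q R) : Prop :=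
  Surjective (θ.H P.j).U → ∃ D, Pb P.l (P.W.X.τ ⁻¹' Iio P.β) D P.d ∧ θ.ξ P.C D ≠ 0

/-- THE ANALYSIS -/
def ThStmt : Prop := ∃ (Q : Prd) (R : ℝ), Taub Q ∧ ∀ (S : Scene) (P : Pent S Q R), ∃ θ : Th S, θ.NV P

end Crest.Agent.X212.Bor5.T
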