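import Crest.Agent.X212.Bor5.Props

/-!
# Row 212, layer S (helper5): projections, towers, the maps on towers
-/

set_option autoImplicit false

open Module Function Filter DirectSum

noncomputable section

namespace Crest.Agent.X212.Bor5

open Fam (Ch RBij)

theorem K_cases (c : K) : c = 0 ∨ c = 1 := by revert c; decide

theorem mem_span_iff {V : Type*} [AddCommGroup V] [Module K V] {a y : V} : y ∈ K ∙ a ↔ y = 0 ∨ y = a := by
  rw [Submodule.mem_span_singleton]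
  constructor
  · rintro ⟨c, rfl⟩
    rcases K_cases c with rfl | rfl <;> simp
  · rintro (rfl | rfl)
    exacts [⟨0, zero_smul _ _⟩, ⟨1, one_smul _ _⟩]

theorem add_self {V : Type*} [AddCommGroup V] [Module K V] (y : V) : y + y = 0 := by
  rw [← two_smul K y, show (2 : K) = 0 from rfl, zero_smul]

namespace Ob

variable (X : Ob)

/-- the grading as one family -/
abbrev G (i : ZMod X.P × ℚ) : Submodule K X.H := X.gr i.1 i.2

instance : Decomposition X.G :=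
  (isInternal_submodule_of_iSupIndep_of_iSup_eq_top X.ind X.top).chooseDecomposition

/-- the projection to class `s`, degree `x` -/
def π (s : ZMod X.P) (x : ℚ) : X.H →ₗ[K] X.H :=
  (X.gr s x).subtype ∘ₗ component K _ (fun i => X.G i) (s, x) ∘ₗ (decomposeLinearEquiv X.G).toLinearMap

variable {X} {s c : ZMod X.P} {x x' : ℚ} {y : X.H}

theorem π_apply : X.π s x y = (decompose X.G y (s, x) : X.H) := rfl

theorem π_mem (s : ZMod X.P) (x : ℚ) (y : X.H) : X.π s x y ∈ X.gr s x := (decompose X.G y (s, x)).2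

theorem π_of_mem (h : y ∈ X.gr s x) : X.π s x y = y := decompose_of_mem_same X.G (i := (s, x)) h

theorem π_of_ne (h : y ∈ X.gr s x) (hn : ¬(s = c ∧ x = x')) : X.π c x' y = 0 :=
  decompose_of_mem_ne X.G (i := (s, x)) (j := (c, x')) h fun e => hn (Prod.ext_iff.1 e)

theorem fin_π (y : X.H) : (support fun i : ZMod X.P × ℚ => X.π i.1 i.2 y).Finite := by
  classical
  refine (decompose X.G y).support.finite_toSet.subset fun i hi => ?_
  exact DFinsupp.mem_support_iff.2 fun e => hi (π_apply.trans (by rw [e]; rfl))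

theorem sum_π (y : X.H) : ∑ᶠ i : ZMod X.P × ℚ, X.π i.1 i.2 y = y := by
  classical
  rw [finsum_eq_sum_of_support_subset (s := (decompose X.G y).support)]
  · exact sum_support_decompose X.G y
  · exact fun i hi => DFinsupp.mem_support_iff.2 fun e => hi (π_apply.trans (by rw [e]; rfl))

theorem eq_zero_of_π (h : ∀ s x, X.π s x y = 0) : y = 0 := by
  rw [← sum_π y]; simp [h]

theorem mem_of_π {W : Submodule K X.H} (h : ∀ s x, X.π s x y ∈ W) : y ∈ W := by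
  rw [← sum_π y, finsum_eq_sum _ (fin_π y)]
  exact W.sum_mem fun i _ => h _ _

@[elab_as_elim]
theorem hom_ind {p : X.H → Prop} (y : X.H) (h0 : p 0) (hom : ∀ s x, ∀ y ∈ X.gr s x, p y)
    (add : ∀ y z, p y → p z → p (y + z)) : p y :=
  Submodule.iSup_induction (fun i : ZMod X.P × ℚ => X.gr i.1 i.2) (motive := p) (X.top ▸ Submodule.mem_top)
    (fun i => hom i.1 i.2) h0 add

theorem hom_ext {V : Type*} [AddCommGroup V] [Module K V] {f g : X.H →ₗ[K] V}
    (h : ∀ s x, ∀ y ∈ X.gr s x, f y = g y) : f = g :=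
  LinearMap.ext fun y => hom_ind y (by simp) h fun y z a b => by rw [map_add, map_add, a, b]

/-- the projections preserve a supremum of subspaces of graded pieces -/
theorem π_mem_of_iSup {ι : Sort*} {W : ι → Submodule K X.H} {V : Submodule K X.H}
    (h : ∀ i, ∀ z ∈ W i, X.π s x z ∈ V) (hy : y ∈ ⨆ i, W i) : X.π s x y ∈ V :=
  Submodule.iSup_induction W (motive := fun y => X.π s x y ∈ V) hy h (by simp)
    fun a b ha hb => by rw [map_add]; exact V.add_mem ha hb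

theorem π_U (s : ZMod X.P) (x : ℚ) (y : X.H) : X.π s (x - 2) (X.U y) = X.U (X.π s x y) := by
  refine LinearMap.congr_fun (hom_ext (f := X.π s (x - 2) ∘ₗ X.U) (g := X.U ∘ₗ X.π s x) fun c x' z hz => ?_) y
  by_cases e : c = s ∧ x' = x
  · obtain ⟨rfl, rfl⟩ := e
    simp [π_of_mem hz, π_of_mem (X.U_mem _ _ _ hz)]
  · simp [π_of_ne hz e, π_of_ne (X.U_mem _ _ _ hz) fun k : c = s ∧ x' - 2 = x - 2 => e ⟨k.1, by linarith [k.2]⟩]

theorem e_mem_T (s : ZMod X.P) (x : ℚ) : X.e s x ∈ X.T := Submodule.subset_span ⟨s, x, rfl⟩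

theorem span_le_T (s : ZMod X.P) (x : ℚ) : K ∙ X.e s x ≤ X.T :=
  (Submodule.span_singleton_le_iff_mem _ _).2 (e_mem_T s x)

theorem π_e (c : ZMod X.P) (x' : ℚ) (s : ZMod X.P) (x : ℚ) : X.π s x (X.e c x') ∈ K ∙ X.e s x := by
  by_cases e : c = s ∧ x' = x
  · obtain ⟨rfl, rfl⟩ := e
    rw [π_of_mem (X.e_mem _ _)]
    exact Submodule.mem_span_singleton_self _
  · rw [π_of_ne (X.e_mem _ _) e]
    exact Submodule.zero_mem _

theorem mem_T : y ∈ X.T ↔ ∀ s x, X.π s x y ∈ K ∙ X.e s x := by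
  refine ⟨fun h s x => ?_, fun h => mem_of_π fun s x => span_le_T s x (h s x)⟩
  induction h using Submodule.span_induction with
  | mem z hz => obtain ⟨c, x', rfl⟩ := hz; exact π_e c x' s x
  | zero => simp
  | add a b _ _ ha hb => rw [map_add]; exact Submodule.add_mem _ ha hb
  | smul a b _ hb => rw [map_smul]; exact Submodule.smul_mem _ _ hb

theorem π_mem_T (h : y ∈ X.T) (s : ZMod X.P) (x : ℚ) : X.π s x y ∈ X.T := span_le_T s x (mem_T.1 h s x)

theorem eq_of_mem_T (h : y ∈ X.T) (hy : y ∈ X.gr s x) : y = 0 ∨ y = X.e s x :=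
  mem_span_iff.1 (π_of_mem hy ▸ mem_T.1 h s x)

theorem Pure.eq (h : X.Pure) (hy : y ∈ X.gr s x) : y = 0 ∨ y = X.e s x :=
  eq_of_mem_T (h.symm ▸ Submodule.mem_top) hy

@[elab_as_elim]
theorem T_ind {p : X.H → Prop} (hy : y ∈ X.T) (h0 : p 0) (he : ∀ s x, p (X.e s x))
    (add : ∀ y z, p y → p z → p (y + z)) : p y := by
  induction hy using Submodule.span_induction with
  | mem z hz => obtain ⟨c, x', rfl⟩ := hz; exact he _ _
  | zero => exact h0
  | add a b _ _ ha hb => exact add _ _ ha hb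
  | smul a b _ hb => rcases K_cases a with rfl | rfl <;> simpa

theorem e_eq_zero (h : x < X.d s) : X.e s x = 0 := by
  by_contra hn
  obtain ⟨k, rfl⟩ := (X.e_ne s x).1 hn
  have : (0 : ℚ) ≤ k := k.cast_nonneg
  linarith

theorem e_add_ne (s : ZMod X.P) (k : ℕ) : X.e s (X.d s + 2 * k) ≠ 0 := (X.e_ne _ _).2 ⟨k, rfl⟩

theorem e_d_ne (s : ZMod X.P) : X.e s (X.d s) ≠ 0 := by simpa using e_add_ne s 0

theorem U_pow_e (s : ZMod X.P) (x : ℚ) (n : ℕ) : (X.U ^ n) (X.e s (x + 2 * n)) = X.e s x := by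
  induction n with
  | zero => simp
  | succ n ih =>
    rw [pow_succ, Module.End.mul_apply, X.U_e]
    convert ih using 3
    push_cast; ring

theorem U_mem_T (h : y ∈ X.T) : X.U y ∈ X.T :=
  T_ind h (by simp) (fun s x => X.U_e s x ▸ e_mem_T _ _) fun a b ha hb => by
    rw [map_add]; exact X.T.add_mem ha hb

variable (X) in
/-- in high and in low degrees there is only the tower -/
theorem exists_bd : ∃ N : ℚ, ∀ s x, N ≤ |x| → X.gr s x ≤ K ∙ X.e s x := by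
  obtain ⟨N, hN⟩ := (X.fin.image fun i => |i.2|).bddAbove
  refine ⟨N + 1, fun s x hx => ?_⟩
  by_contra hn
  have := hN ⟨(s, x), hn, rfl⟩
  simp only at this
  linarith

variable (X) in
theorem exists_top : ∃ N : ℚ, ∀ s x, N ≤ x → X.gr s x ≤ K ∙ X.e s x :=
  let ⟨N, h⟩ := X.exists_bd
  ⟨N, fun s x hx => h s x (hx.trans (le_abs_self x))⟩

variable (X) in
theorem exists_bot : ∃ N : ℚ, ∀ s x, x ≤ N → X.gr s x = ⊥ := by
  obtain ⟨N, h⟩ := X.exists_bd
  obtain ⟨M, hM⟩ := (Set.finite_range X.d).bddBelow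
  refine ⟨min (-N) (M - 1), fun s x hx => ?_⟩
  have h1 := h s x (by linarith [neg_le_abs x, hx.trans (min_le_left _ _)])
  rw [e_eq_zero (by linarith [hM ⟨s, rfl⟩, hx.trans (min_le_right _ _)]), Submodule.span_zero_singleton] at h1
  exact le_bot_iff.1 h1

theorem mem_low {D : ZMod X.P → ℚ} {k : ℕ} : y ∈ X.low D k ↔ ∀ s x, D s + 2 * k ≤ x → X.π s x y = 0 := by
  refine ⟨fun h s x hx => ?_, fun h => mem_of_π fun s x => ?_⟩
  · refine (Submodule.mem_bot K).1 (π_mem_of_iSup (fun c z hz => π_mem_of_iSup (fun x' z hz =>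
      π_mem_of_iSup (fun hx' z hz => ?_) hz) hz) h)
    rw [π_of_ne hz, Submodule.mem_bot]
    rintro ⟨rfl, rfl⟩
    exact hx'.not_ge hx
  · rcases lt_or_ge x (D s + 2 * k) with a | a
    · exact Submodule.mem_iSup_of_mem s (Submodule.mem_iSup_of_mem x (Submodule.mem_iSup_of_mem a (π_mem _ _ _)))
    · rw [h s x a]; exact Submodule.zero_mem _

theorem gr_le_low {D : ZMod X.P → ℚ} {k : ℕ} (h : x < D s + 2 * k) : X.gr s x ≤ X.low D k :=
  le_iSup_of_le s (le_iSup_of_le x (le_iSup_of_le h le_rfl))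

theorem low_mono {D : ZMod X.P → ℚ} {k k' : ℕ} (h : k ≤ k') : X.low D k ≤ X.low D k' := fun _ hy =>
  mem_low.2 fun s x hx => mem_low.1 hy s x (by have : (k : ℚ) ≤ k' := Nat.cast_le.2 h; linarith)

theorem exists_low (D : ZMod X.P → ℚ) (y : X.H) : ∃ k, y ∈ X.low D k := by
  refine hom_ind y ⟨0, Submodule.zero_mem _⟩ (fun s x z hz => ?_) fun a b ⟨k, ha⟩ ⟨k', hb⟩ =>
    ⟨max k k', Submodule.add_mem _ (low_mono (le_max_left _ _) ha) (low_mono (le_max_right _ _) hb)⟩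
  obtain ⟨k, hk⟩ := exists_nat_gt ((x - D s) / 2)
  exact ⟨k, gr_le_low (by linarith) hz⟩

end Ob

open Ob

namespace Fam

variable {A B : Ob} (f : Fam A B)

theorem tot_apply (y : A.H) : f.tot y = ∑ᶠ κ, f.F κ y := rfl

theorem neg_tot : f.neg.tot = f.tot := LinearMap.ext fun y => finsum_comp_equiv (Equiv.neg ℤ) (f := fun κ => f.F κ y)

theorem π_F (κ : ℤ) (x : ℚ) (y : A.H) : B.π (f.t κ) (x + f.dg κ) (f.F κ y) = f.F κ (A.π (f.s κ) x y) := by
  refine LinearMap.congr_fun (hom_ext (f := B.π _ _ ∘ₗ f.F κ) (g := f.F κ ∘ₗ A.π _ _) fun c x' z hz => ?_) y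
  by_cases e : c = f.s κ
  · subst e
    by_cases e' : x' = x
    · subst e'
      simp [π_of_mem hz, π_of_mem (f.map _ _ _ hz)]
    · simp [π_of_ne hz fun k : _ ∧ x' = x => e' k.2, π_of_ne (f.map _ _ _ hz)
        fun k : _ ∧ x' + f.dg κ = x + f.dg κ => e' (add_right_cancel k.2)]
  · simp [f.off κ c x' z e hz, π_of_ne hz fun k : c = f.s κ ∧ x' = x => e k.1]

theorem π_F_ne (κ : ℤ) {c : ZMod B.P} (h : c ≠ f.t κ) (x : ℚ) (y : A.H) : B.π c x (f.F κ y) = 0 := by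
  refine LinearMap.congr_fun (hom_ext (f := B.π _ _ ∘ₗ f.F κ) (g := 0) fun c' x' z hz => ?_) y
  by_cases e : c' = f.s κ
  · subst e
    simp [π_of_ne (f.map _ _ _ hz) fun k : _ = c ∧ _ = x => h k.1.symm]
  · simp [f.off κ c' x' z e hz]

theorem U_pow (κ : ℤ) (n : ℕ) (y : A.H) : f.F κ ((A.U ^ n) y) = (B.U ^ n) (f.F κ y) := by
  induction n generalizing y with
  | zero => simp
  | succ n ih => rw [pow_succ, pow_succ, Module.End.mul_apply, Module.End.mul_apply, ih, f.U]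

theorem tot_U (y : A.H) : f.tot (A.U y) = B.U (f.tot y) := by
  simp only [tot_apply, f.U]
  exact (map_finsum B.U (f.fin y)).symm

theorem tot_mem {W : Submodule K B.H} {y : A.H} (h : ∀ κ, f.F κ y ∈ W) : f.tot y ∈ W := by
  rw [tot_apply, finsum_eq_sum _ (f.fin y)]
  exact W.sum_mem fun κ _ => h κ

theorem tot_eq_zero (h : ∀ κ, f.F κ = 0) : f.tot = 0 := LinearMap.ext fun y => by simp [tot_apply, h]

theorem F_e_ne (κ : ℤ) {c : ZMod A.P} (h : c ≠ f.s κ) (x : ℚ) : f.F κ (A.e c x) = 0 :=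
  f.off κ c x _ h (A.e_mem c x)

/-- towers go to towers -/
theorem F_mem_T (κ : ℤ) {y : A.H} (h : y ∈ A.T) : f.F κ y ∈ B.T := by
  refine T_ind h (by simp) (fun s x => ?_) fun a b ha hb => by rw [map_add]; exact B.T.add_mem ha hb
  by_cases e : s = f.s κ
  · subst e
    obtain ⟨N, hN⟩ := B.exists_top
    obtain ⟨n, hn⟩ := exists_nat_ge ((N - x - f.dg κ) / 2)
    rw [← U_pow_e _ x n, f.U_pow]
    have h1 := span_le_T _ _ (hN _ _ (by linarith) (f.map κ _ _ (A.e_mem _ (x + 2 * n))))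
    generalize f.F κ _ = z at h1
    clear hn
    induction n with
    | zero => simpa
    | succ n ih => rw [pow_succ', Module.End.mul_apply]; exact U_mem_T ih
  · rw [f.F_e_ne κ e]; exact B.T.zero_mem

theorem tot_mem_T {y : A.H} (h : y ∈ A.T) : f.tot y ∈ B.T := f.tot_mem fun κ => f.F_mem_T κ h

/-- the map induced on the reduced parts -/
def red (κ : ℤ) : A.Red →ₗ[K] B.Red := A.T.mapQ B.T (f.F κ) fun _ h => f.F_mem_T κ h

/-- the total map on the reduced parts -/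
def rtot : A.Red →ₗ[K] B.Red := A.T.mapQ B.T f.tot fun _ h => f.tot_mem_T h

theorem ind_red (κ : ℤ) : Ind (f.F κ) (f.red κ) := fun _ => rfl

theorem ind_rtot : Ind f.tot f.rtot := fun _ => rfl

theorem Ind.unique {g : A.H →ₗ[K] B.H} {φ ψ : A.Red →ₗ[K] B.Red} (h : Ind g φ) (h' : Ind g ψ) : φ = ψ :=
  A.T.linearMap_qext (LinearMap.ext fun y => (h y).trans (h' y).symm)

theorem rbij_iff : RBij f.tot ↔ Bijective f.rtot :=
  ⟨fun ⟨_, h, b⟩ => h.unique f.ind_rtot ▸ b, fun b => ⟨_, f.ind_rtot, b⟩⟩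

variable {f}

theorem Neg.F_e (h : f.Neg) {κ : ℤ} (hκ : Ch A B κ) (x : ℚ) :
    f.F κ (A.e (f.s κ) x) = B.e (f.t κ) (x + f.dg κ) := by
  obtain ⟨N, hN⟩ := h.tow κ hκ
  obtain ⟨n, hn⟩ := exists_nat_ge ((N - x) / 2)
  rw [← U_pow_e _ x n, f.U_pow, hN _ (by linarith), add_right_comm, U_pow_e]

theorem Neg.fro (h : f.Neg) {κ : ℤ} (hκ : Ch A B κ) :
    ∃ n : ℕ, B.d (f.t κ) = A.d (f.s κ) + f.dg κ + 2 * n := by
  obtain ⟨k, hk⟩ := (A.e_ne (f.s κ) (B.d (f.t κ) - f.dg κ)).1 fun e => by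
    have := h.F_e hκ (B.d (f.t κ) - f.dg κ)
    rw [e, map_zero, sub_add_cancel] at this
    exact e_d_ne _ this.symm
  exact ⟨k, by linarith⟩

theorem Pos.F_T (h : f.Pos) (κ : ℤ) {y : A.H} (hy : y ∈ A.T) : f.F κ y = 0 := by
  refine T_ind hy (by simp) (fun s x => ?_) fun a b ha hb => by rw [map_add, ha, hb, add_zero]
  by_cases e : s = f.s κ
  · subst e
    obtain ⟨N, hN⟩ := h.tow κ
    obtain ⟨n, hn⟩ := exists_nat_ge ((N - x) / 2)
    rw [← U_pow_e _ x n, f.U_pow, hN _ (by linarith), map_zero]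
  · exact f.F_e_ne κ e x

theorem Pos.tot_T (h : f.Pos) {y : A.H} (hy : y ∈ A.T) : f.tot y = 0 := by simp [tot_apply, h.F_T _ hy]

theorem Pos.F_pure (h : f.Pos) (hA : A.Pure) (κ : ℤ) : f.F κ = 0 :=
  LinearMap.ext fun _ => h.F_T κ (hA.symm ▸ Submodule.mem_top)

theorem ch_neg {κ : ℤ} : Ch A B (-κ) ↔ Ch A B κ := by simp only [Ch, Int.even_add, even_neg]

theorem ch_comm {κ : ℤ} : Ch A B κ ↔ Ch B A κ := by rw [Ch, Ch, mul_comm]

theorem Sharp.neg {D : ZMod A.P → ℚ} {D' : ZMod B.P → ℚ} (h : f.Sharp D D') : f.neg.Sharp D D' :=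
  fun κ hκ => by simpa [Fam.neg] using h (-κ) (ch_neg.2 hκ)

theorem Sharp.of_neg {D : ZMod A.P → ℚ} {D' : ZMod B.P → ℚ} (h : f.neg.Sharp D D') : f.Sharp D D' :=
  fun κ hκ => by simpa [Fam.neg] using h (-κ) (ch_neg.2 hκ)

private theorem surj_aux {n : ℕ} [NeZero n] {σ : ℤ → ZMod n} {C : ℤ → Prop} (hC : ∀ κ (i : ℤ), C κ → C (κ + 2 * i))
    (h : ∀ κ κ', C κ → C κ' → (σ κ = σ κ' ↔ κ ≡ κ' [ZMOD 2 * n])) {a : ℤ} (ha : C a) (c : ZMod n) :
    ∃ i : ℕ, i < n ∧ σ (a + 2 * i) = c := by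
  have inj : Injective fun i : ZMod n => σ (a + 2 * (i.val : ℤ)) := fun i j e => by
    have h1 := ((h _ _ (hC _ _ ha) (hC _ _ ha)).1 e).add_left_cancel' a
    have h2 := Int.ModEq.mul_left_cancel' two_ne_zero h1
    have := (ZMod.intCast_eq_intCast_iff _ _ _).2 h2
    simpa using this
  obtain ⟨i, hi⟩ := Finite.surjective_of_injective inj c
  exact ⟨i.val, ZMod.val_lt i, hi⟩

theorem ch_add {κ : ℤ} (i : ℤ) (h : Ch A B κ) : Ch A B (κ + 2 * i) := by
  unfold Ch at *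
  rw [add_right_comm]
  exact h.add (even_two_mul i)

/-- every class is a source, in every window of length `2 P` -/
theorem Lat.exists_s (h : f.Lat) {a : ℤ} (ha : Ch A B a) (c : ZMod A.P) :
    ∃ i : ℕ, i < A.P ∧ f.s (a + 2 * i) = c := surj_aux (fun _ => ch_add) h.hs ha c

/-- every class is a target, in every window of length `2 P'` -/
theorem Lat.exists_t (h : f.Lat) {a : ℤ} (ha : Ch A B a) (c : ZMod B.P) :
    ∃ i : ℕ, i < B.P ∧ f.t (a + 2 * i) = c := surj_aux (fun _ => ch_add) h.ht ha c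

theorem Lat.ch (h : f.Lat) : Ch A B (1 - A.P - B.P) := by
  have h1 : ¬(Even (A.P : ℤ) ∧ Even (B.P : ℤ)) := fun k => by
    have := Nat.dvd_gcd (even_iff_two_dvd.1 (Int.even_coe_nat _ |>.1 k.1))
      (even_iff_two_dvd.1 (Int.even_coe_nat _ |>.1 k.2))
    rw [h.cop] at this
    omega
  simp only [Ch, Int.even_add, Int.even_sub, Int.even_mul, Int.not_even_one]
  tauto

theorem Lat.sharp_s (h : f.Lat) (c : ZMod A.P) : ∃ κ, Ch A B κ ∧ |κ| < A.P + B.P ∧ f.s κ = c := by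
  obtain ⟨i, hi, e⟩ := h.exists_s h.ch c
  have := B.pos
  exact ⟨_, ch_add i h.ch, abs_lt.2 ⟨by omega, by omega⟩, e⟩

theorem Lat.sharp_t (h : f.Lat) (c : ZMod B.P) : ∃ κ, Ch A B κ ∧ |κ| < A.P + B.P ∧ f.t κ = c := by
  obtain ⟨i, hi, e⟩ := h.exists_t h.ch c
  have := A.pos
  exact ⟨_, ch_add i h.ch, abs_lt.2 ⟨by omega, by omega⟩, e⟩

variable {D : ZMod A.P → ℚ} {D' : ZMod B.P → ℚ}

theorem Sharp.eq (h : f.Sharp D D') {κ : ℤ} (hκ : Ch A B κ) (hs : |κ| < A.P + B.P) :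
    D' (f.t κ) = D (f.s κ) + f.dg κ := by
  obtain ⟨n, e, hn⟩ := h κ hκ
  rw [e, hn.2 hs]; simp

theorem Sharp.le (h : f.Sharp D D') {κ : ℤ} (hκ : Ch A B κ) : D (f.s κ) + f.dg κ ≤ D' (f.t κ) := by
  obtain ⟨n, e, -⟩ := h κ hκ
  have : (0 : ℚ) ≤ n := n.cast_nonneg
  linarith

theorem Sharp.le_of_not (h : f.Sharp D D') {κ : ℤ} (hκ : Ch A B κ) (hs : ¬|κ| < A.P + B.P) :
    D (f.s κ) + f.dg κ + 2 ≤ D' (f.t κ) := by
  obtain ⟨n, e, hn⟩ := h κ hκ
  have : (1 : ℚ) ≤ n := by exact_mod_cast Nat.one_le_iff_ne_zero.2 (mt hn.1 hs)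
  linarith

theorem Neg.le (h : f.Neg) {κ : ℤ} (hκ : Ch A B κ) : A.d (f.s κ) + f.dg κ ≤ B.d (f.t κ) := by
  obtain ⟨n, e⟩ := h.fro hκ
  have : (0 : ℚ) ≤ n := n.cast_nonneg
  linarith

/-- MATCH: upper bounds go backwards along a negative definite handle -/
theorem Neg.ub (h : f.Neg) (hs : f.Sharp D D') (hb : ∀ c, B.d c ≤ D' c) (c : ZMod A.P) : A.d c ≤ D c := by
  obtain ⟨κ, h1, h2, rfl⟩ := h.sharp_s c
  linarith [h.le h1, hs.eq h1 h2, hb (f.t κ)]

/-- MATCH: lower bounds go forwards along a negative definite handle -/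
theorem Neg.lb (h : f.Neg) (hs : f.Sharp D D') (hb : ∀ c, D c ≤ A.d c) (c : ZMod B.P) : D' c ≤ B.d c := by
  obtain ⟨κ, h1, h2, rfl⟩ := h.sharp_t c
  linarith [h.le h1, hs.eq h1 h2, hb (f.s κ)]

theorem Neg.cg_s (h : f.Neg) (hs : f.Sharp D D') (hb : B.Cg D') : A.Cg D := fun c => by
  obtain ⟨κ, h1, h2, rfl⟩ := h.sharp_s c
  obtain ⟨n, e⟩ := h.fro h1
  obtain ⟨k, hk⟩ := hb (f.t κ)
  exact ⟨n + k, by push_cast; linarith [hs.eq h1 h2]⟩

theorem Neg.cg_t (h : f.Neg) (hs : f.Sharp D D') (ha : A.Cg D) : B.Cg D' := fun c => by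
  obtain ⟨κ, h1, h2, rfl⟩ := h.sharp_t c
  obtain ⟨n, e⟩ := h.fro h1
  obtain ⟨k, hk⟩ := ha (f.s κ)
  exact ⟨k - n, by push_cast; linarith [hs.eq h1 h2]⟩

theorem Lat.neg (h : f.Lat) : f.neg.Lat where
  cop := h.cop
  par κ hκ := h.par _ (mt ch_neg.1 hκ)
  hs κ κ' a b := (h.hs _ _ (ch_neg.2 a) (ch_neg.2 b)).trans ⟨fun e => by simpa using e.neg, .neg⟩
  ht κ κ' a b := (h.ht _ _ (ch_neg.2 a) (ch_neg.2 b)).trans ⟨fun e => by simpa using e.neg, .neg⟩

theorem neg_neg (f : Fam A B) : f.neg.neg = f := by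
  cases f; simp [Fam.neg]

theorem Neg.neg (h : f.Neg) : f.neg.Neg :=
  ⟨h.toLat.neg, fun κ => (h.dg _).trans (by simp), fun κ hκ => h.tow _ (ch_neg.2 hκ)⟩

theorem Neg.of_neg (h : f.neg.Neg) : f.Neg := neg_neg f ▸ h.neg

end Fam

theorem fro : FroStmt := fun _ _ _ =>
  ⟨fun h _ hκ => ⟨h.fro hκ, h.F_e hκ⟩, fun h κ _ hy => h.F_T κ hy⟩

end Crest.Agent.X212.Bor5
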