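import Crest.Agent.X212.Lens8.D

/-!
# Row 212, layer S (helper5): the homology level theory

`Ob` : a graded `F₂[U]`-module with one tower in every class.  `Fam` : the maps of one cobordism, indexed by
the integer `κ`.  `Tri` : an exact triad.  `Sys` : all rational homology sphere fillings of one knot.
Slopes are vectors `(p, q)`, `p ≠ 0`, `q ≥ 0`; the label `j` lives in `ℤ / |p|`, its position is `2 j + 1 - q`.
-/

set_option autoImplicit false

open Module Function Filter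

noncomputable section

namespace Crest.Agent.X212.Bor5

/-- the coefficient field -/
abbrev K : Type := ZMod 2

/-- a graded module with towers: `e s x` is the tower element of class `s` in degree `x` -/
structure Ob : Type 1 where
  H : Type
  [acg : AddCommGroup H]
  [mdl : Module K H]
  P : ℕ
  pos : 0 < P
  gr : ZMod P → ℚ → Submodule K H
  ind : iSupIndep fun i : ZMod P × ℚ => gr i.1 i.2
  top : ⨆ i : ZMod P × ℚ, gr i.1 i.2 = ⊤
  fd : ∀ s x, FiniteDimensional K (gr s x)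
  U : H →ₗ[K] H
  U_mem : ∀ s x y, y ∈ gr s x → U y ∈ gr s (x - 2)
  d : ZMod P → ℚ
  e : ZMod P → ℚ → H
  e_mem : ∀ s x, e s x ∈ gr s x
  e_ne : ∀ s x, e s x ≠ 0 ↔ ∃ k : ℕ, x = d s + 2 * k
  U_e : ∀ s x, U (e s x) = e s (x - 2)
  /-- off a finite set of degrees there is only the tower -/
  fin : {i : ZMod P × ℚ | ¬gr i.1 i.2 ≤ K ∙ e i.1 i.2}.Finite

attribute [instance] Ob.acg Ob.mdl

namespace Ob

variable (X : Ob)

instance : NeZero X.P := ⟨X.pos.ne'⟩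

/-- the towers -/
def T : Submodule K X.H := Submodule.span K {y | ∃ s x, y = X.e s x}

/-- only towers -/
def Pure : Prop := X.T = ⊤

/-- the reduced part -/
abbrev Red : Type := X.H ⧸ X.T

/-- graded pieces of the reduced part -/
def rd (s : ZMod X.P) (x : ℚ) : Submodule K X.Red := (X.gr s x).map X.T.mkQ

/-- the part below the level `k` over the bottoms `D` -/
def low (D : ZMod X.P → ℚ) (k : ℕ) : Submodule K X.H :=
  ⨆ (s : ZMod X.P) (x : ℚ) (_ : x < D s + 2 * k), X.gr s x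

/-- `D` is congruent to the degrees of the towers -/
def Cg (D : ZMod X.P → ℚ) : Prop := ∀ s, ∃ k : ℤ, D s = X.d s + 2 * k

/-- the renormalised dimension relative to `D` is `r` -/
def Rho (D : ZMod X.P → ℚ) (r : ℤ) : Prop :=
  ∀ᶠ k : ℕ in atTop, (finrank K (X.low D k) : ℤ) = k * X.P + r

end Ob

/-- a graded isomorphism -/
structure Iso (X Y : Ob) where
  φ : ZMod X.P ≃ ZMod Y.P
  g : X.H ≃ₗ[K] Y.H
  map : ∀ s x, (X.gr s x).map (g : X.H →ₗ[K] Y.H) = Y.gr (φ s) x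
  U : ∀ y, g (X.U y) = Y.U (g y)

/-- the maps of one cobordism -/
structure Fam (A B : Ob) where
  F : ℤ → A.H →ₗ[K] B.H
  s : ℤ → ZMod A.P
  t : ℤ → ZMod B.P
  dg : ℤ → ℚ
  map : ∀ κ x y, y ∈ A.gr (s κ) x → F κ y ∈ B.gr (t κ) (x + dg κ)
  off : ∀ κ c x y, c ≠ s κ → y ∈ A.gr c x → F κ y = 0
  U : ∀ κ y, F κ (A.U y) = B.U (F κ y)
  fin : ∀ y, (support fun κ => F κ y).Finite

namespace Fam

variable {A B C : Ob} (f : Fam A B)

/-- the total map -/
def tot : A.H →ₗ[K] B.H where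
  toFun y := ∑ᶠ κ, f.F κ y
  map_add' y z := by simp only [map_add]; exact finsum_add_distrib (f.fin y) (f.fin z)
  map_smul' c y := by simp only [map_smul, RingHom.id_apply]; exact (smul_finsum' c (f.fin y)).symm

/-- `κ ↦ -κ` -/
def neg : Fam A B where
  F κ := f.F (-κ)
  s κ := f.s (-κ)
  t κ := f.t (-κ)
  dg κ := f.dg (-κ)
  map κ := f.map (-κ)
  off κ := f.off (-κ)
  U κ := f.U (-κ)
  fin y := (f.fin y).preimage neg_injective.injOn

/-- the values of `κ` that are characteristic -/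
def Ch (A B : Ob) (κ : ℤ) : Prop := Even (κ + A.P * B.P)

/-- the lattice of one two-handle -/
structure Lat : Prop where
  cop : Nat.Coprime A.P B.P
  par : ∀ κ, ¬Ch A B κ → f.F κ = 0
  hs : ∀ κ κ', Ch A B κ → Ch A B κ' → (f.s κ = f.s κ' ↔ κ ≡ κ' [ZMOD 2 * A.P])
  ht : ∀ κ κ', Ch A B κ → Ch A B κ' → (f.t κ = f.t κ' ↔ κ ≡ κ' [ZMOD 2 * B.P])

/-- a negative definite handle: isomorphisms of the towers in high degrees -/
structure Neg : Prop extends f.Lat where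
  dg : ∀ κ, f.dg κ = (1 - (κ : ℚ) ^ 2 / (A.P * B.P)) / 4
  tow : ∀ κ, Ch A B κ → ∃ N, ∀ x, N ≤ x → f.F κ (A.e (f.s κ) x) = B.e (f.t κ) (x + f.dg κ)

/-- a positive definite handle: zero on the towers -/
structure Pos : Prop extends f.Lat where
  dg : ∀ κ, f.dg κ = ((κ : ℚ) ^ 2 / (A.P * B.P) - 5) / 4
  tow : ∀ κ, ∃ N, ∀ x, N ≤ x → f.F κ (A.e (f.s κ) x) = 0

/-- the model bottoms `D`, `D'` : the gap is even, and zero exactly for `|κ| < P + P'` -/
def Sharp (D : ZMod A.P → ℚ) (D' : ZMod B.P → ℚ) : Prop :=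
  ∀ κ, Ch A B κ → ∃ n : ℕ, D' (f.t κ) = D (f.s κ) + f.dg κ + 2 * n ∧ (n = 0 ↔ |κ| < A.P + B.P)

/-- `φ` is the map induced by `g` on the reduced parts -/
def Ind (g : A.H →ₗ[K] B.H) (φ : A.Red →ₗ[K] B.Red) : Prop := ∀ y, φ (A.T.mkQ y) = B.T.mkQ (g y)

/-- `g` induces a bijection of the reduced parts -/
def RBij (g : A.H →ₗ[K] B.H) : Prop := ∃ φ, Ind g φ ∧ Bijective φ

end Fam

open Fam (Ch)

/-- an exact triad `L → M → U → L` with `|M| = |L| + |U|` -/
structure Tri {L M U : Ob} (f : Fam L M) (g : Fam M U) (h : Fam U L) : Prop where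
  hP : M.P = L.P + U.P
  nf : f.Neg
  ng : g.Neg
  ph : h.Pos
  ex1 : Exact f.tot g.tot
  ex2 : Exact g.tot h.tot
  ex3 : Exact h.tot f.tot
  cmp : ∀ κ c, Ch U L κ → Odd c → h.t (-κ) = f.s (κ - c * L.P)
  fold : ∀ μ c, Odd c → f.F (μ - c * M.P) ∘ₗ h.F (c * U.P - μ) = f.F (μ + c * M.P) ∘ₗ h.F (-c * U.P - μ)

/-- slopes of rational homology spheres -/
def Sl (p q : ℤ) : Prop := p ≠ 0 ∧ 0 ≤ q ∧ IsCoprime p q

/-- Farey edges inside one side: `p / q < p' / q'` -/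
def Ed (p q p' q' : ℤ) : Prop := 0 < p * p' ∧ 0 ≤ q ∧ 0 ≤ q' ∧ q * p' - q' * p = 1

/-- the class of a pair of labels -/
def kap (p q p' q' j j' : ℤ) : ℤ := (2 * j + 1 - q) * p' - (2 * j' + 1 - q') * p

/-- the correction terms of the fillings of the unknot -/
def D (p q j : ℤ) : ℚ :=
  if 0 < p then Lens8.dL p.toNat (q % p).toNat j else -Lens8.dL (-p).toNat (q % p).toNat j

/-- their sum -/
def Sd (p q : ℤ) : ℚ := ∑ j ∈ Finset.range p.natAbs, D p q j

/-- `D` as a function of the class -/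
def Dc (X : Ob) (p q : ℤ) (s : ZMod X.P) : ℚ := D p q s.val

/-- the third vertex of a shear triad: a lens space of order `q`, with the handles to and from `A = Y p q` -/
structure Thd (Λ A : Ob) (p q : ℤ) where
  G : Fam A Λ
  G' : Fam Λ A
  sG : ∀ j : ℤ, G.s (2 * j + 1 - q - p) = j ∧ G.t (2 * j + 1 - q - p) = j
  sG' : ∀ j : ℤ, G'.s (p - (2 * j + 1 - q)) = j ∧ G'.t (p - (2 * j + 1 - q)) = j

/-- the shear triad of `t : Y p q → Y (p + q) q` -/
structure Shr {A B : Ob} (t : Fam A B) (p q : ℤ) : Type 1 where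
  Λ : Ob
  hP : Λ.P = q.natAbs
  pure : Λ.Pure
  hd : ∀ j : ℤ, Λ.d j = -D q p j
  a : Thd Λ A p q
  b : Thd Λ B (p + q) q
  pp : 0 < p → Tri t b.G a.G'
  nn : p + q < 0 → Tri a.G'.neg t b.G.neg
  np : p < 0 → 0 < p + q → Tri b.G.neg a.G' t

/-- all fillings of one knot: the Farey part -/
structure Far : Type 1 where
  Y : ℤ → ℤ → Ob
  F : ∀ p q p' q' : ℤ, Fam (Y p q) (Y p' q')
  hP : ∀ p q, Sl p q → (Y p q).P = p.natAbs
  /-- the sphere -/
  inf : ∀ p, p = 1 ∨ p = -1 → (Y p 0).Pure ∧ ∀ s, (Y p 0).d s = 0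
  neg : ∀ p q p' q', Ed p q p' q' → (F p q p' q').Neg
  lab : ∀ p q p' q', Ed p q p' q' → ∀ j j' : ℤ,
    (F p q p' q').s (kap p q p' q' j j') = j ∧ (F p q p' q').t (kap p q p' q' j j') = j'
  tri : ∀ p q p' q' a b, Ed p q p' q' → a = p + p' → b = q + q' →
    Tri (F p q a b) (F a b p' q') (F p' q' p q)
  /-- blow-up formulas -/
  bu1 : ∀ p q p' q' a b, Ed p q p' q' → a = p + p' → b = q + q' → ∀ κ c, c = 1 ∨ c = -1 →
    (F a b p' q').F (κ + c * p') ∘ₗ (F p q a b).F (κ - c * p) = (F p q p' q').F κ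
  bu2 : ∀ p q p' q' a b, Ed p q p' q' → a = p + p' → b = q + q' → ∀ κ,
    (F p' q' p q).F (κ - p) ∘ₗ (F a b p' q').F (a - κ) = (F a b p q).F κ
  bu3 : ∀ p q p' q' a b, Ed p q p' q' → a = p + p' → b = q + q' → ∀ κ,
    (F p q a b).F (-κ - a) ∘ₗ (F p' q' p q).F (κ + p') = (F p' q' a b).F κ

/-- the model bottoms on `Y p q` -/
abbrev Far.D (S : Far) (p q : ℤ) : ZMod (S.Y p q).P → ℚ := Dc (S.Y p q) p q

/-- non-vanishing: the filling of slope `1 / 4` does not look like the sphere -/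
def Far.NV (S : Far) : Prop := ¬((S.Y 1 4).Pure ∧ ∀ s, (S.Y 1 4).d s = 0)

/-- the correction terms are those of the unknot -/
def Far.Del (S : Far) (p q : ℤ) : Prop := (S.Y p q).d = S.D p q

/-- all fillings of one knot -/
structure Sys : Type 1 extends Far where
  /-- shear handles (for `q = 1` these are Farey edges) -/
  labT : ∀ p q p', Sl p q → 2 ≤ q → p' = p + q → ∀ j : ℤ,
    (F p q p' q).s (2 * j + 1 - q) = j ∧ (F p q p' q).t (2 * j + 1 - q) = j
  shr : ∀ p q p', Sl p q → 2 ≤ q → p' = p + q → Nonempty (Shr (F p q p' q) p q)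
  swap : ∀ p q p' p'', Sl p q → 1 ≤ q → p' = p + q → p'' = p' + q → p' ≠ 0 → p'' ≠ 0 → ∀ j c : ℤ,
    (F p' q p'' q).F (2 * (j + p' * c) + 1 - q) ∘ₗ (F p q p' q).F (2 * j + 1 - q) =
      (F p' q p'' q).F (2 * (j - q * c) + 1 - q) ∘ₗ (F p q p' q).F (2 * (j + p * c) + 1 - q)

namespace Sys

variable (S : Sys)

/-- the model bottoms on `Y p q` -/
abbrev D (p q : ℤ) : ZMod (S.Y p q).P → ℚ := Dc (S.Y p q) p q

/-- non-vanishing: the filling of slope `1 / 4` does not look like the sphere -/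
def NV : Prop := ¬((S.Y 1 4).Pure ∧ ∀ s, (S.Y 1 4).d s = 0)

/-- the correction terms are those of the unknot -/
def Del (p q : ℤ) : Prop := (S.Y p q).d = S.D p q

end Sys

/-- the same without the correction terms of the third vertices: one pure object `Λ q r` for every line
`p ≡ r mod q` -/
structure Sys0 : Type 1 extends Far where
  labT : ∀ p q p', Sl p q → 2 ≤ q → p' = p + q → ∀ j : ℤ,
    (F p q p' q).s (2 * j + 1 - q) = j ∧ (F p q p' q).t (2 * j + 1 - q) = j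
  swap : ∀ p q p' p'', Sl p q → 1 ≤ q → p' = p + q → p'' = p' + q → p' ≠ 0 → p'' ≠ 0 → ∀ j c : ℤ,
    (F p' q p'' q).F (2 * (j + p' * c) + 1 - q) ∘ₗ (F p q p' q).F (2 * j + 1 - q) =
      (F p' q p'' q).F (2 * (j - q * c) + 1 - q) ∘ₗ (F p q p' q).F (2 * (j + p * c) + 1 - q)
  Λ : ℤ → ℤ → Ob
  G : ∀ p q r, Fam (Y p q) (Λ q r)
  G' : ∀ p q r, Fam (Λ q r) (Y p q)
  hΛ : ∀ p q, Sl p q → 2 ≤ q → (Λ q (p % q)).P = q.natAbs ∧ (Λ q (p % q)).Pure
  sG : ∀ p q r, Sl p q → 2 ≤ q → r = p % q → ∀ j : ℤ,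
    (G p q r).s (2 * j + 1 - q - p) = j ∧ (G p q r).t (2 * j + 1 - q - p) = j
  sG' : ∀ p q r, Sl p q → 2 ≤ q → r = p % q → ∀ j : ℤ,
    (G' p q r).s (p - (2 * j + 1 - q)) = j ∧ (G' p q r).t (p - (2 * j + 1 - q)) = j
  pp : ∀ p q p' r, Sl p q → 2 ≤ q → p' = p + q → r = p % q → 0 < p → Tri (F p q p' q) (G p' q r) (G' p q r)
  nn : ∀ p q p' r, Sl p q → 2 ≤ q → p' = p + q → r = p % q → p' < 0 →
    Tri (G' p q r).neg (F p q p' q) (G p' q r).neg
  np : ∀ p q p' r, Sl p q → 2 ≤ q → p' = p + q → r = p % q → p < 0 → 0 < p' →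
    Tri (G p' q r).neg (G' p q r) (F p q p' q)

/-- the data from which non-vanishing is read: `X` = `+1` filling of the cable, `Z` = sphere -/
structure NVD (X : Ob) : Type 1 where
  Z : Ob
  hX : X.P = 1
  hZ : Z.P = 1
  pure : Z.Pure ∧ ∀ s, Z.d s = 0
  G : Fam X Z
  neg : G.Neg
  ξ : ℤ → X.H
  fin : (support ξ).Finite
  ne : ξ ≠ 0
  r : ℤ
  hr : r ≠ 0
  κ : ℤ
  fold : ∀ n : ℤ, G.F 1 (ξ n) = G.F κ (ξ (n + r))

end Crest.Agent.X212.Bor5
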