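import Crest.Agent.X212.Bor5.Val
import Crest.Agent.X212.Lens8.Sharp
import Crest.Agent.X212.Hat23.Main

/-!
# Row 212, layer S (helper5): the correction terms of the third vertices are forced, `Sys0 → Sys`
-/

set_option autoImplicit false

open Module Function Filter

noncomputable section

namespace Crest.Agent.X212.Bor5

open Fam (Ch RBij)
open Lens8 (sharp_ed sharp_of Dc_cast D_nat D_pos nat_cop gap_phi gap_shear even_cop even_shear sumStmt)

theorem Ed.sl {p q p' q' : ℤ} (h : Ed p q p' q') : Sl p q ∧ Sl p' q' :=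
  ⟨⟨left_ne_zero_of_mul h.1.ne', h.2.1, -q', p', by linear_combination h.2.2.2⟩,
    right_ne_zero_of_mul h.1.ne', h.2.2.1, q, -p, by linear_combination h.2.2.2⟩

theorem Sl.upper {p q : ℤ} (h : Sl p q) (hp : 0 < p) (hq : 0 < q) : ∃ p' q', q' < q ∧ 0 < p' ∧ Ed p q p' q' := by
  lift p to ℕ using hp.le
  lift q to ℕ using hq.le
  obtain ⟨p', q', a, b, e⟩ := Lens8.exists_upper (p := p) (q := q) (by omega) (by omega) (nat_cop h.2.2)
  refine ⟨p', q', by omega, by omega, by positivity, by omega, by omega, ?_⟩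
  zify at e
  linear_combination e

theorem Sl.add {p q : ℤ} (h : Sl p q) (i : ℤ) (h0 : p + q * i ≠ 0) : Sl (p + q * i) q :=
  ⟨h0, h.2.1, h.2.2.add_mul_left_left i⟩

theorem Tri.rho0 {L M U : Ob} {f : Fam L M} {g : Fam M U} {h : Fam U L} (t : Tri f g h) (h0 : ∀ κ, h.F κ = 0)
    {DL : ZMod L.P → ℚ} {DM : ZMod M.P → ℚ} {DU : ZMod U.P → ℚ} (s1 : f.Sharp DL DM) (s2 : g.Sharp DM DU)
    (c1 : L.Cg DL) (c2 : M.Cg DM) (c3 : U.Cg DU) {a b c : ℤ} (r1 : L.Rho DL a) (r2 : M.Rho DM b)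
    (r3 : U.Rho DU c) : a + c = b := by
  have := (Hat23.rho L M U f g h t DL DM DU s1 s2 c1 c2 c3 a b c r1 r2 r3).2
  rw [h.tot_eq_zero h0, LinearMap.range_zero, finrank_bot] at this
  simpa using this

namespace Far

variable (S : Far)

theorem d_inf {p : ℤ} (h : p = 1 ∨ p = -1) : (S.Y p 0).d = S.D p 0 := funext fun s => by
  rw [(S.inf p h).2]
  rcases h with rfl | rfl
  · exact (sumStmt.2.2.1 _ _).symm
  · exact ((Lens8.D_neg one_pos _ _).trans (by rw [sumStmt.2.2.1, neg_zero])).symm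

theorem bnd_pos {p q : ℤ} (h : Sl p q) (hp : 0 < p) :
    (S.Y p q).Cg (S.D p q) ∧ ∀ s, (S.Y p q).d s ≤ S.D p q s := by
  obtain ⟨n, rfl⟩ := Int.eq_ofNat_of_zero_le h.2.1
  induction n using Nat.strong_induction_on generalizing p with
  | _ n ih =>
    rcases n.eq_zero_or_pos with rfl | hn
    · have := Int.isUnit_iff.1 (isCoprime_zero_right.1 h.2.2)
      rw [Nat.cast_zero, ← S.d_inf this]
      exact ⟨Ob.cg_d _, fun _ => le_rfl⟩
    · obtain ⟨p', q', a, b, e⟩ := h.upper hp (by omega)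
      obtain ⟨m, rfl⟩ := Int.eq_ofNat_of_zero_le e.2.2.1
      obtain ⟨k1, k2⟩ := ih m (by omega) b e.sl.2
      exact ⟨(S.neg _ _ _ _ e).cg_s (sharp_ed S e) k1, (S.neg _ _ _ _ e).ub (sharp_ed S e) k2⟩

theorem rho_inf : (S.Y 1 0).Rho (S.D 1 0) 0 := S.d_inf (.inl rfl) ▸ (S.inf 1 (.inl rfl)).1.rho

theorem rho_med {p q p' q' a b : ℤ} (e : Ed p q p' q') (hp : 0 < p) (ha : a = p + p') (hb : b = q + q')
    (z : ∀ κ, (S.F p' q' p q).F κ = 0) {r r' : ℤ} (h1 : (S.Y p q).Rho (S.D p q) r)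
    (h2 : (S.Y p' q').Rho (S.D p' q') r') : (S.Y a b).Rho (S.D a b) (r + r') := by
  have hp' : 0 < p' := pos_of_mul_pos_left' e.1 hp
  have e1 : Ed p q a b := ⟨by rw [ha]; positivity, e.2.1, by linarith [e.2.1, e.2.2.1], by
    rw [ha, hb]; linear_combination e.2.2.2⟩
  have e2 : Ed a b p' q' := ⟨by rw [ha]; positivity, e1.2.2.1, e.2.2.1, by
    rw [ha, hb]; linear_combination e.2.2.2⟩
  have c := (S.bnd_pos e1.sl.2 (by omega)).1
  obtain ⟨x, hx⟩ := c.exists_rho
  rwa [(S.tri _ _ _ _ _ _ e ha hb).rho0 z (sharp_ed S e1) (sharp_ed S e2) (S.bnd_pos e.sl.1 hp).1 c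
    (S.bnd_pos e.sl.2 hp').1 h1 hx h2]
where pos_of_mul_pos_left' {a b : ℤ} (h : 0 < a * b) (ha : 0 < a) : 0 < b := (mul_pos_iff_of_pos_left ha).1 h

theorem ed_inf {n : ℤ} (h : 0 < n) : Ed n 1 1 0 := ⟨by omega, by omega, le_rfl, by ring⟩

theorem zero_inf {n : ℤ} (h : 0 < n) (κ : ℤ) : (S.F 1 0 n 1).F κ = 0 :=
  (S.tri _ _ _ _ _ _ (ed_inf h) rfl rfl).ph.F_pure (S.inf 1 (.inl rfl)).1 κ

theorem rho_int {R : ℤ} (h : (S.Y 1 1).Rho (S.D 1 1) R) {n : ℤ} (hn : 1 ≤ n) : (S.Y n 1).Rho (S.D n 1) R := by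
  induction n, hn using Int.leInduction with
  | base => exact h
  | succ n hn ih => simpa using S.rho_med (b := 1) (ed_inf hn) hn rfl rfl (S.zero_inf hn) ih S.rho_inf

theorem edge_ge {R : ℤ} (h : (S.Y 1 1).Rho (S.D 1 1) R) (n : ℕ) : ∀ p q p' q' : ℤ, q + q' ≤ n → Ed p q p' q' →
    0 < p → q ≤ p → (∀ κ, (S.F p' q' p q).F κ = 0) ∧ (S.Y p q).Rho (S.D p q) (q * R) ∧
      (S.Y p' q').Rho (S.D p' q') (q' * R) := by
  induction n with
  | zero =>
    rintro p q p' q' h1 ⟨-, h2, h3, h4⟩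
    obtain rfl : q = 0 := by omega
    obtain rfl : q' = 0 := by omega
    simp at h4
  | succ n ih =>
    intro p q p' q' h1 e hp hq
    obtain ⟨e1, e2, e3, e4⟩ := id e
    have hp' : 0 < p' := (mul_pos_iff_of_pos_left hp).1 e1
    have hq0 : 0 < q := by
      by_contra hn
      obtain rfl : q = 0 := by omega
      nlinarith
    rcases e3.eq_or_lt with rfl | e3'
    · obtain ⟨rfl, rfl⟩ : q = 1 ∧ p' = 1 := by
        have := Int.eq_one_or_neg_one_of_mul_eq_one' (u := q) (v := p') (by linarith)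
        omega
      exact ⟨S.zero_inf hp, by simpa using S.rho_int h hp, by simpa using S.rho_inf⟩
    rcases le_or_gt q q' with c | c
    · obtain ⟨u, rfl⟩ : ∃ u, p' = p + u := ⟨p' - p, by ring⟩
      obtain ⟨v, rfl⟩ : ∃ v, q' = q + v := ⟨q' - q, by ring⟩
      have hu : 0 < u := by nlinarith
      have e' : Ed p q u v := ⟨by positivity, e2, by omega, by linear_combination e4⟩
      obtain ⟨z, r1, r2⟩ := ih p q u v (by push_cast at h1; omega) e' hp hq
      exact ⟨fun κ => by rw [← S.bu2 _ _ _ _ _ _ e' rfl rfl, z, LinearMap.zero_comp], r1,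
        add_mul q v R ▸ S.rho_med e' hp rfl rfl z r1 r2⟩
    · obtain ⟨u, rfl⟩ : ∃ u, p = u + p' := ⟨p - p', by ring⟩
      obtain ⟨v, rfl⟩ : ∃ v, q = v + q' := ⟨q - q', by ring⟩
      have hu : v ≤ u := by nlinarith
      have hu0 : 0 < u := by omega
      have e' : Ed u v p' q' := ⟨by positivity, by omega, e3, by linear_combination e4⟩
      obtain ⟨z, r1, r2⟩ := ih u v p' q' (by push_cast at h1; omega) e' hu0 hu
      exact ⟨fun κ => by rw [← S.bu3 _ _ _ _ _ _ e' rfl rfl, z, LinearMap.comp_zero],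
        add_mul v q' R ▸ S.rho_med e' hu0 rfl rfl z r1 r2, r2⟩

/-- `ρ(p / q) = q R` for `p / q ≥ 1` -/
theorem rho_ge : ∃ R : ℤ, ∀ p q, Sl p q → 0 < q → q ≤ p → (S.Y p q).Rho (S.D p q) (q * R) := by
  obtain ⟨R, hR⟩ := (S.bnd_pos (p := 1) (q := 1) ⟨one_ne_zero, zero_le_one, isCoprime_one_left⟩ one_pos).1.exists_rho
  refine ⟨R, fun p q h hq hp => ?_⟩
  obtain ⟨p', q', -, -, e⟩ := h.upper (by omega) hq
  exact (S.edge_ge hR (q + q').toNat p q p' q' (by omega) e (by omega) hp).2.1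

end Far

/-- few classes have a defect -/
theorem Ob.card_bad {X : Ob} {D : ZMod X.P → ℚ} (c : X.Cg D) (hle : ∀ s, X.d s ≤ D s) {r : ℤ} (h : X.Rho D r) :
    ((Finset.univ.filter fun s => X.d s ≠ D s).card : ℤ) ≤ r := by
  have h1 := (c.rho_iff r).1 h
  have h2 : ((Finset.univ.filter fun s => X.d s ≠ D s).card : ℚ) ≤ ∑ s, (D s - X.d s) / 2 := by
    rw [Finset.card_filter]
    push_cast
    refine Finset.sum_le_sum fun s _ => ?_
    obtain ⟨k, hk⟩ := c s
    have h3 := hle s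
    split_ifs with e
    · have : 0 < k := by
        have := lt_of_le_of_ne h3 e
        exact_mod_cast (by linarith : (0 : ℚ) < k)
      have : (1 : ℚ) ≤ k := by exact_mod_cast this
      linarith
    · linarith
  have h4 : (0 : ℚ) ≤ finrank K X.Red := Nat.cast_nonneg _
  exact_mod_cast (by linarith : ((Finset.univ.filter fun s => X.d s ≠ D s).card : ℚ) ≤ r)

namespace Sys0

variable (S : Sys0) {p q p' r : ℤ}

/-- the model on the third vertex -/
def DL (q r : ℤ) (s : ZMod (S.Λ q r).P) : ℚ := -Dc (S.Λ q r) q r s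

theorem emod_add (e : p' = p + q) (hr : r = p % q) : r = p' % q := by rw [e, hr]; simp

theorem sharp_t (s1 : Sl p q) (hq : 2 ≤ q) (e : p' = p + q) (hp : 0 < p) :
    (S.F p q p' q).Sharp (S.D p q) (S.D p' q) := by
  have s3 : Sl p' q := by simpa [e] using s1.add 1 (by omega)
  have P1 := S.hP p q s1
  have P2 := S.hP p' q s3
  have ng := (S.pp p q p' _ s1 hq e rfl hp).nf
  lift q to ℕ using s1.2.1
  lift p to ℕ using hp.le
  have a' : 0 < p := by omega
  obtain rfl : p' = (p + q : ℕ) := by rw [e]; push_cast; rfl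
  simp only [Int.natAbs_natCast] at P1 P2
  refine sharp_of (c := 1 - q) (gap_shear a' (by omega) (nat_cop s1.2.2)) (.inl rfl) ?_ (by omega) (by omega)
    fun j => ?_
  · rw [P1, P2]; push_cast; exact even_shear (nat_cop s1.2.2)
  · rw [show 1 * (1 - (q : ℤ) + 2 * j) = 2 * j + 1 - q by ring, (S.labT _ _ _ s1 hq e j).1,
      (S.labT _ _ _ s1 hq e j).2, ng.dg, Far.D, Far.D, Dc_cast (S.hP _ _ s3),
      Dc_cast (S.hP _ _ s1), P1, P2, D_nat a', D_nat (by omega)]
    push_cast; rfl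

theorem sharp_G (s1 : Sl p q) (hq : 2 ≤ q) (e : p' = p + q) (hr : r = p % q) (hp : 0 < p) :
    (S.G p' q r).Sharp (S.D p' q) (S.DL q r) := by
  have s3 : Sl p' q := by simpa [e] using s1.add 1 (by omega)
  have P2 := S.hP p' q s3
  have P3 : (S.Λ q r).P = q.natAbs := hr ▸ (S.hΛ p q s1 hq).1
  have ng := (S.pp p q p' r s1 hq e hr hp).ng
  have hr' := emod_add e hr
  lift q to ℕ using s1.2.1
  lift p' to ℕ using (by omega)
  have a' : 0 < p' := by omega
  have q0 : 0 < q := by omega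
  have hc := nat_cop s3.2.2
  rw [Int.natAbs_natCast] at P2
  have P4 : (S.Λ q r).P = q := by simpa using P3
  refine sharp_of (c := 1 - q - p') (gap_phi a' q0 hc) (.inl rfl) ?_ (by omega) (by omega) fun j => ?_
  · rw [P2, P4]
    obtain ⟨t, ht⟩ := even_cop hc
    exact ⟨t + 1 - q, by linear_combination ht⟩
  · rw [show 1 * (1 - (q : ℤ) - p' + 2 * j) = 2 * j + 1 - q - p' by ring,
      (S.sG _ _ _ s3 hq hr' j).1, (S.sG _ _ _ s3 hq hr' j).2, ng.dg, DL, Far.D, Dc_cast P3,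
      Dc_cast (S.hP _ _ s3), P2, P4, D_nat a', D_pos q0 (r := p') (hr' ▸ Int.dvd_self_sub_emod), Lens8.Phi]
    push_cast; ring

theorem hd (s1 : Sl p q) (hq : 2 ≤ q) (hr : r = p % q) : (S.Λ q r).d = S.DL q r := by
  obtain ⟨R, hR⟩ := S.toFar.rho_ge
  obtain ⟨i, hi⟩ : ∃ i : ℤ, q * (q * |R| + 1) ≤ p + q * i :=
    ⟨q * |R| + 1 + |p|, by nlinarith [neg_abs_le p, abs_nonneg p]⟩
  have h0 : 0 ≤ q * |R| := by positivity
  have h1 : q ≤ p + q * i := by nlinarith
  have s2 := s1.add i (by omega)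
  have hr2 : r = (p + q * i) % q := by rw [hr]; simp
  generalize p + q * i = a at *
  obtain ⟨b, hb⟩ : ∃ b, b = a + q := ⟨_, rfl⟩
  have s3 : Sl b q := by simpa [hb] using s2.add 1 (by omega)
  have t := S.pp a q b r s2 hq hb hr2 (by omega)
  have pu : (S.Λ q r).Pure := hr2 ▸ (S.hΛ a q s2 hq).2
  have P3 : (S.Λ q r).P = q.natAbs := hr2 ▸ (S.hΛ a q s2 hq).1
  have k1 := S.sharp_t s2 hq hb (by omega)
  have k2 := S.sharp_G s2 hq hb hr2 (by omega)
  obtain ⟨cb, lb⟩ := S.toFar.bnd_pos s3 (by omega)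
  have rb := hR b q s3 (by omega) (by omega)
  have cl := t.ng.cg_t k2 cb
  obtain ⟨x, hx⟩ := cl.exists_rho
  have x0 := t.rho0 (t.ph.F_pure pu) k1 k2 (S.toFar.bnd_pos s2 (by omega)).1 cb cl (hR a q s2 (by omega) h1) rb hx
  obtain rfl : x = 0 := by omega
  have sum := (cl.rho_iff 0).1 hx
  rw [(pure_iff _).1 pu] at sum
  have P2 := S.hP b q s3
  have le : ∀ c, S.DL q r c ≤ (S.Λ q r).d c := fun c => by
    have hc : (c.val : ℤ) < q := by have := ZMod.val_lt c; omega
    obtain ⟨n, hn, e⟩ : ∃ n ∈ Finset.range ((q * |R|).toNat + 1),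
        (S.Y b q).d ((c.val + q * n : ℤ)) = S.D b q ((c.val + q * n : ℤ)) := by
      by_contra! hn
      have h2 := Finset.card_le_card_of_injOn (t := Finset.univ.filter fun s => (S.Y b q).d s ≠ S.D b q s)
        (fun n : ℕ => ((c.val + q * n : ℤ) : ZMod (S.Y b q).P)) (fun n h => by simpa using hn n h)
        fun n h m h' e => by
          have h3 := (ZMod.intCast_eq_intCast_iff _ _ _).1 e
          have h4 : (n : ℤ) ≤ q * |R| := by have := Finset.mem_range.1 h; omega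
          have h5 : (m : ℤ) ≤ q * |R| := by have := Finset.mem_range.1 h'; omega
          have h6 := Int.eq_of_sub_eq_zero (Int.eq_zero_of_abs_lt_dvd h3.dvd (by
            rw [P2, abs_lt]; constructor <;> (push_cast; rw [abs_of_pos (by omega : 0 < b)]; nlinarith)))
          have : (m : ℤ) = n := mul_left_cancel₀ (by omega : q ≠ 0) (by linarith)
          omega
      have h3 := Ob.card_bad cb lb rb
      rw [Finset.card_range] at h2
      have : q * R ≤ q * |R| := mul_le_mul_of_nonneg_left (le_abs_self R) (by omega)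
      omega
    have h4 : (n : ℤ) ≤ q * |R| := by have := Finset.mem_range.1 hn; omega
    obtain ⟨l1, l2⟩ := S.sG b q r s3 hq (emod_add hb hr2) (c.val + q * n)
    have ch : Ch (S.Y b q) (S.Λ q r) (2 * (c.val + q * n) + 1 - q - b) := by
      have := Fam.ch_add (c.val + q * n) t.ng.toLat.ch
      convert this using 1
      omega
    have h5 := t.ng.le ch
    have h6 := k2.eq ch (by
      have : 0 ≤ q * n := by positivity
      have : q * n ≤ q * (q * |R|) := mul_le_mul_of_nonneg_left h4 (by omega)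
      rw [mul_add] at hi
      rw [abs_lt]; constructor <;> omega)
    have h7 : ((c.val + q * n : ℤ) : ZMod (S.Λ q r).P) = c := by
      have : ((q : ℤ) : ZMod (S.Λ q r).P) = 0 := (ZMod.intCast_zmod_eq_zero_iff_dvd _ _).2 (by rw [P3]; simp)
      push_cast
      rw [this]; simp
    rw [l1, l2, h7] at h5 h6
    linarith
  funext c
  have := (Finset.sum_eq_zero_iff_of_nonpos (s := Finset.univ) (f := fun s => (S.DL q r s - (S.Λ q r).d s) / 2)
    fun s _ => by linarith [le s]).1 (by simpa using sum.symm) c (Finset.mem_univ c)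
  linarith

/-- the system -/
def sys : Sys where
  toFar := S.toFar
  labT := S.labT
  swap := S.swap
  shr p q p' s1 hq e := by
    have s3 : Sl p' q := by
      have := s1.add 1 fun h => by
        have h1 : IsUnit q := s1.2.2.isUnit_of_dvd' ⟨-1, by omega⟩ dvd_rfl
        rw [Int.isUnit_iff] at h1; omega
      rwa [mul_one, ← e] at this
    have hr := emod_add e rfl
    exact ⟨{
      Λ := S.Λ q (p % q)
      hP := (S.hΛ p q s1 hq).1
      pure := (S.hΛ p q s1 hq).2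
      hd := fun j => by
        rw [S.hd s1 hq rfl, DL, Dc_cast (S.hΛ p q s1 hq).1, D, D, Int.emod_emod_of_dvd _ dvd_rfl, neg_inj]
      a := ⟨S.G p q _, S.G' p q _, S.sG p q _ s1 hq rfl, S.sG' p q _ s1 hq rfl⟩
      b := ⟨S.G p' q _, S.G' p' q _, e ▸ S.sG p' q _ s3 hq hr, e ▸ S.sG' p' q _ s3 hq hr⟩
      pp := S.pp p q p' _ s1 hq e rfl
      nn := fun h => S.nn p q p' _ s1 hq e rfl (e ▸ h)
      np := fun h h' => S.np p q p' _ s1 hq e rfl h (e ▸ h') }⟩

end Sys0

end Crest.Agent.X212.Bor5
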