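import Crest.Agent.X212.Bor5.Main
import Crest.Agent.X212.Bor5.Zero
import Crest.Agent.X212.Frb23.Kill

/-!
# Row 212, layer S (helper5): the target of the seam, and level one assembled
-/

set_option autoImplicit false

noncomputable section

namespace Crest.Agent.X212.Bor5

open Crest.Agent.X212.Ext52 Crest.Agent.X212.Nrm38

/-- SYS0: the target of the seam -/
def Sys0Stmt : Prop := ∀ k : KD, ¬k.thick.IsUnknot → ∃ S : Sys0,
  (∃ X, Nonempty (NVD X) ∧ Nonempty (Iso X (S.Y 1 4))) ∧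
  (∀ p q q', Sl p q → Sl p q' → 0 < p → Cos k p q q' → Nonempty (Iso (S.Y p q) (S.Y p q'))) ∧
  ∀ p q s, Sl p q → Sl p s → 0 < p → 0 < s → Cos k p q (-s) → Nonempty (Iso (S.Y p q) (S.Y (-p) s))

theorem sys_of (h : Sys0Stmt) : SysStmt := fun k hk =>
  let ⟨S, ⟨_, ⟨w⟩, ⟨i⟩⟩, h1, h2⟩ := h k hk
  ⟨S.sys, S.sys.nv_of w i, h1, h2⟩

theorem out (hB : BndStmt) (hP : PosStmt) (hPr : PropStmt) (hA : AllStmt) : OutStmt :=
  out_of val iso Lens8.sumStmt hB hP hPr hA (Frb23.kill fro val iso)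

end Crest.Agent.X212.Bor5
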