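import Crest.Agent.X212.Bor5.Th
import Crest.Agent.X212.Rw22.In
import Crest.Agent.X212.Lab56.Gd

/-!
# Row 212, layer S (helper5): the geometric seam, statements

`Ex S τ V v` : a scene contains the fillings of the tube `τ` and the words with one and two vertices.
`Lc`, `Lo` : orders of classes.  `Cw` : the classes with given orders.  The leaves give the fields of `Rw22.Rod`.
-/

set_option autoImplicit false
set_option linter.unusedSectionVars false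

open Set Filter Topology Function Module
open scoped ContDiff Manifold
open Crest.Agent.R208 Crest.Agent.R208.F
open Crest.Agent.X212.Dr59 (pm)
open Crest.Agent.X212.Cyl58 (TP TIso cylT)
open Crest.Agent.X212.Orx52 (Pos TPos OriOn pr oR oT oX)
open Crest.Agent.X212.Rod53 (E4 Z2 Loc Uni IsWd wd dt)
open Crest.Agent.X212.Lab56 (Cls Dat Ref Good Pic0)
open Crest.Agent.X212.Line51 (wm dot)
open Crest.Agent.X212.Rw22 (Rod HIso Sg Tr dgk sq kp)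

noncomputable section

namespace Crest.Agent.X212.Bor5.T

/-- one vertex, at `0` -/
def w1 {α : Type} (a b : α) (n : ℤ) : α := if n < 0 then a else b

/-- two vertices, at `0` and `1` -/
def w2 {α : Type} (a b c : α) (n : ℤ) : α := if n < 0 then a else if n = 0 then b else c

/-- `C` is the rod manifold of `v`, with the same time and the ends `(-∞, x)`, `(y, ∞)` -/
structure Rt {τ : Tub} {A B : Q3} {a b : Z2} (C : Cob A B) {v : ℝ → Z2} (hv : Loc v) (f : Fo τ A.toO3 a)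
    (g : Fo τ B.toO3 b) (x y : ℝ) where
  K : TIso (τ.T.tp hv) C.X univ
  pos : TPos K (oX hv τ.ori) C.o
  ha : C.a = x
  hb : C.b = y
  ki : ∀ p : A.Y.M × ℝ, p.2 < x → K (f.cy v p) = C.ki p
  ko : ∀ p : B.Y.M × ℝ, y < p.2 → K (g.cy v p) = C.ko p

/-- the vertices `a`, `b` span an edge -/
def Eg {I : Type} (V : Set I) (v : I → Z2) (a b : I) : Prop := a ∈ V ∧ b ∈ V ∧ Uni (v a) (v b)

/-- the scene contains the fillings `v i`, `i ∈ V`, of `τ` and the words with one and two vertices -/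
structure Ex (S : Scene) (τ : Tub) {I : Type} (V : Set I) (v : I → Z2) where
  ι : I → S.ι
  f : ∀ i, i ∈ V → Fo τ (S.ob (ι i)).toO3 (v i)
  c1 : ∀ {a b}, Eg V v a b → S.κ (ι a) (ι b)
  h1 : ∀ {a b}, Eg V v a b → IsWd (w1 (v a) (v b))
  r1 : ∀ {a b} (h : Eg V v a b), Rt (S.cob (c1 h)) (h1 h).loc (f a h.1) (f b h.2.1) 0 0
  c2 : ∀ {a b c}, Eg V v a b → Eg V v b c → S.κ (ι a) (ι c)
  h2 : ∀ {a b c}, Eg V v a b → Eg V v b c → IsWd (w2 (v a) (v b) (v c))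
  r2 : ∀ {a b c} (h : Eg V v a b) (k : Eg V v b c),
    Rt (S.cob (c2 h k)) (h2 h k).loc (f a h.1) (f c k.2.1) 0 1

section lab

variable {τ : Tub} {n N : ℕ} (R : Ref τ.T (Fin n) (Fin N))

/-- the class `d` has the orders `m` -/
def Lc {v : ℝ → Z2} (d : Cls (𝓡 4) (univ : Set (τ.X v))) (m : ℝ → ℤ) : Prop :=
  ∃ D : Dat (𝓡 4) (univ : Set (τ.X v)), (Quot.mk _ D : Cls (𝓡 4) univ) = d ∧ R.Lab D.d m univ

/-- the class `s` on a filling has the order `m` -/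
def Lo {A : O3} {a : Z2} (f : Fo τ A a) (s : A.L) (m : ℤ) : Prop :=
  ∃ d : Cls (𝓡 4) (univ : Set (τ.X fun _ => a)), Pb (N := A.cyl.P.M) (f.cy fun _ => a) univ d s ∧ Lc R d fun _ => m

/-- the class `d` on a rod cobordism has the orders `m` -/
def Rt.Lb {A B : Q3} {a b : Z2} {C : Cob A B} {v : ℝ → Z2} {hv : Loc v} {f : Fo τ A.toO3 a}
    {g : Fo τ B.toO3 b} {x y : ℝ} (r : Rt C hv f g x y) (d : C.L) (m : ℝ → ℤ) : Prop :=
  ∃ d₀ : Cls (𝓡 4) (univ : Set (τ.X v)), Pb (fun p : τ.X v => (r.K p : C.M)) univ d d₀ ∧ Lc R d₀ m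

end lab

namespace Ex

variable {S : Scene} {τ : Tub} {I : Type} {V : Set I} {v : I → Z2} (X : Ex S τ V v) {n N : ℕ}
  (R : Ref τ.T (Fin n) (Fin N))

/-- orders on a filling -/
def L0 {i : I} (h : i ∈ V) (s : (S.ob (X.ι i)).L) (m : ℤ) : Prop := Lo R (X.f i h) s m

/-- orders on a word with one vertex -/
def L1 {a b : I} (h : Eg V v a b) (d : (S.cob (X.c1 h)).L) (m m' : ℤ) : Prop :=
  (X.r1 h).Lb R d (wm (w1 (v a) (v b)) (w1 m m'))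

/-- orders on a word with two vertices -/
def L2 {a b c : I} (h : Eg V v a b) (k : Eg V v b c) (d : (S.cob (X.c2 h k)).L) (m m' m'' : ℤ) : Prop :=
  (X.r2 h k).Lb R d (wm (w2 (v a) (v b) (v c)) (w2 m m' m''))

/-- the classification of the classes by their orders -/
structure Cw (δ : Z2) (ε : I → ℤ) : Prop where
  ex0 : ∀ {i} (h : i ∈ V) m, Even (m + ε i) → ∃ s, X.L0 R h s m
  sj0 : ∀ {i} (h : i ∈ V) s, ∃ m, Even (m + ε i) ∧ X.L0 R h s m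
  eq0 : ∀ {i} (h : i ∈ V) {s t m m'}, X.L0 R h s m → X.L0 R h t m' → (s = t ↔ 2 * dot δ (v i) ∣ m - m')
  ex1 : ∀ {a b} (h : Eg V v a b) m m', Even (m + ε a) → Even (m' + ε b) → ∃ d, X.L1 R h d m m'
  sj1 : ∀ {a b} (h : Eg V v a b) d, ∃ m m', Even (m + ε a) ∧ Even (m' + ε b) ∧ X.L1 R h d m m'
  eq1 : ∀ {a b} (h : Eg V v a b) {d d' m m' k k'}, X.L1 R h d m m' → X.L1 R h d' k k' →
    (d = d' ↔ ∃ j, m - k = 2 * j * dot δ (v a) ∧ m' - k' = 2 * j * dot δ (v b))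
  in1 : ∀ {a b} (h : Eg V v a b) {d s m m'}, X.L1 R h d m m' → X.L0 R h.1 s m → (S.cob (X.c1 h)).In d s
  out1 : ∀ {a b} (h : Eg V v a b) {d t m m'}, X.L1 R h d m m' → X.L0 R h.2.1 t m' → (S.cob (X.c1 h)).Out d t
  ex2 : ∀ {a b c} (h : Eg V v a b) (k : Eg V v b c) m m' m'', Even (m + ε a) → Even (m' + ε b) →
    Even (m'' + ε c) → ∃ d, X.L2 R h k d m m' m''
  eq2 : ∀ {a b c} (h : Eg V v a b) (k : Eg V v b c) {d d' m m' m''}, X.L2 R h k d m m' m'' →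
    X.L2 R h k d' m m' m'' → d = d'

end Ex

/-- R-CLS -/
def ClsStmt : Prop := ∀ (S : Scene) (τ : Tub) {I : Type} (V : Set I) (v : I → Z2) (X : Ex S τ V v)
  (ϑ : τ.N.M → Circle) (δ : Z2), Good τ.T ϑ δ →
  Nonempty (Cls (τ.N.I.prod 𝓘(ℝ, ℝ)) (univ : Set (τ.N.M × ℝ))) →
  (∀ i (h : i ∈ V), Pic0 (S.ob (X.ι i)).Y.I univ (X.f i h).F.tb.Ex) →
  ∃ (n N : ℕ) (R : Ref τ.T (Fin n) (Fin N)) (ε : I → ℤ), X.Cw R δ ε

/-- R-DEG: degree and sign of one handle -/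
def DegStmt : Prop := ∀ (S : Scene) (θ : Th S) (τ : Tub) {I : Type} (V : Set I) (v : I → Z2) (X : Ex S τ V v)
  (ϑ : τ.N.M → Circle) (δ : Z2) {n N : ℕ} (R : Ref τ.T (Fin n) (Fin N)), Good τ.T ϑ δ → τ.σ = -1 →
  (∀ i ∈ V, dot δ (v i) ≠ 0) → ∀ {a b} (h : Eg V v a b) d m m', X.L1 R h d m m' →
    θ.dg (X.c1 h) d = dgk (sq δ (v a) (v b)) (kp δ (v a) (v b) m m') ∧
    (sq δ (v a) (v b) < 0 → ∀ s, (S.cob (X.c1 h)).In d s →
      ∃ M, ∀ x, M ≤ x → ∀ y ∈ (θ.H _).gr s x, θ.F (X.c1 h) d y = 0 → y = 0) ∧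
    (0 < sq δ (v a) (v b) → ∃ M, ∀ s x, M ≤ x → ∀ y ∈ (θ.H _).gr s x, θ.F (X.c1 h) d y = 0)

/-- R-DEG2: the degree of the blown-up word -/
def Deg2Stmt : Prop := ∀ (S : Scene) (θ : Th S) (τ : Tub) {I : Type} (V : Set I) (v : I → Z2) (X : Ex S τ V v)
  (ϑ : τ.N.M → Circle) (δ : Z2) {n N : ℕ} (R : Ref τ.T (Fin n) (Fin N)), Good τ.T ϑ δ → τ.σ = -1 →
  (∀ i ∈ V, dot δ (v i) ≠ 0) → ∀ {a b c} (h : Eg V v a b) (k : Eg V v b c) (l : Eg V v a c) σ ρ e d d' ma mb mc,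
    Tr (v a) (v b) (v c) σ ρ → Sg e → mb = σ * ma + ρ * mc + e → X.L2 R h k d ma mb mc → X.L1 R l d' ma mc →
    θ.dg (X.c2 h k) d = θ.dg (X.c1 l) d'

/-- R-COMP -/
def CmpStmt : Prop := ∀ (S : Scene) (θ : Th S) (τ : Tub) {I : Type} (V : Set I) (v : I → Z2) (X : Ex S τ V v)
  {n N : ℕ} (R : Ref τ.T (Fin n) (Fin N)) {a b c} (h : Eg V v a b) (k : Eg V v b c) d d₁ d₂ ma mb mc,
    X.L2 R h k d ma mb mc → X.L1 R h d₁ ma mb → X.L1 R k d₂ mb mc →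
    θ.F (X.c2 h k) d = θ.F (X.c1 k) d₂ ∘ₗ θ.F (X.c1 h) d₁

/-- R-BU -/
def BuStmt : Prop := ∀ (S : Scene) (θ : Th S) (τ : Tub) {I : Type} (V : Set I) (v : I → Z2) (X : Ex S τ V v)
  {n N : ℕ} (R : Ref τ.T (Fin n) (Fin N)), τ.σ = -1 →
  ∀ {a b c} (h : Eg V v a b) (k : Eg V v b c) (l : Eg V v a c) σ ρ d d' ma mb mc,
    Tr (v a) (v b) (v c) σ ρ → X.L2 R h k d ma mb mc → X.L1 R l d' ma mc →
    θ.dg (X.c2 h k) d = θ.dg (X.c1 l) d' → θ.F (X.c2 h k) d = θ.F (X.c1 l) d'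

/-- R-REFL -/
def RflStmt : Prop := ∀ (S : Scene) (θ : Th S) (τ : Tub) {I : Type} (V : Set I) (v : I → Z2) (X : Ex S τ V v)
  {n N : ℕ} (R : Ref τ.T (Fin n) (Fin N)) {a b c} (h : Eg V v a b) (k : Eg V v b c) (σ ρ p e : ℤ) d d' ma mb mb' mc,
    Sg σ → Sg ρ → p * e = 2 → σ • v a + ρ • v c = p • v b → mb' = -mb + e * (σ * ma + ρ * mc) →
    X.L2 R h k d ma mb mc → X.L2 R h k d' ma mb' mc → θ.F (X.c2 h k) d = θ.F (X.c2 h k) d'

/-- R-EX -/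
def ExStmt : Prop := ∀ (S : Scene) (θ : Th S) (τ : Tub) {I : Type} (V : Set I) (v : I → Z2) (X : Ex S τ V v),
  τ.σ = -1 → ∀ {a b c} (h : Eg V v a b) (k : Eg V v b c) σ ρ, Tr (v a) (v b) (v c) σ ρ →
    Exact (fun y => ∑ᶠ d, θ.F (X.c1 h) d y) fun y => ∑ᶠ d, θ.F (X.c1 k) d y

/-- R-ASM: the rod theory, with its dictionary -/
def RodStmt : Prop := ∀ (S : Scene) (θ : Th S) (τ : Tub) {I : Type} (V : Set I) (v : I → Z2) (X : Ex S τ V v)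
  (ϑ : τ.N.M → Circle) (δ : Z2) {n N : ℕ} (R : Ref τ.T (Fin n) (Fin N)) (ε : I → ℤ), Good τ.T ϑ δ → τ.σ = -1 →
  (∀ i ∈ V, dot δ (v i) ≠ 0) → X.Cw R δ ε →
  ∃ ρ : Rod V v δ fun i => θ.H (X.ι i), ρ.ε = ε ∧
    (∀ {i} (h : i ∈ V) m, Even (m + ε i) → X.L0 R h (ρ.cl i m) m) ∧
    ∀ {a b} (h : Eg V v a b) d m m', Even (m + ε a) → Even (m' + ε b) → X.L1 R h d m m' →
      ρ.F (ρ.c2 a b m m') = θ.F (X.c1 h) d

/-! ### diffeomorphisms -/

/-- a positive diffeomorphism -/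
structure D3 (A B : O3) where
  φ : A.Y.M ≃ₘ^∞⟮A.Y.I, B.Y.I⟯ B.Y.M
  pos : Pos A.Y.I B.Y.I φ univ A.o B.o

/-- `C` is the mapping cylinder of `φ` -/
structure Mc {A B : Q3} (C : Cob A B) (φ : A.Y.M → B.Y.M) where
  K : TIso A.cyl C.X univ
  pos : TPos K (pr A.o oR) C.o
  ha : C.a = 1
  hb : C.b = -1
  ki : ∀ p : A.Y.M × ℝ, p.2 < 1 → C.ki p = K p
  ko : ∀ p : A.Y.M × ℝ, -1 < p.2 → C.ko (φ p.1, p.2) = K p

/-- the scene contains the cylinders of `φ`, its inverse, and the identities -/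
structure Cy (S : Scene) (i j : S.ι) (φ : D3 (S.ob i).toO3 (S.ob j).toO3) where
  c : S.κ i j
  c' : S.κ j i
  ci : S.κ i i
  cj : S.κ j j
  m : Mc (S.cob c) φ.φ
  m' : Mc (S.cob c') φ.φ.symm
  mi : Mc (S.cob ci) id
  mj : Mc (S.cob cj) id

/-- R-ISO -/
def IsoStmt : Prop := ∀ (S : Scene) (θ : Th S) (i j : S.ι) (φ : D3 (S.ob i).toO3 (S.ob j).toO3),
  Cy S i j φ → Nonempty (HIso (θ.H i) (θ.H j))

/-- R-MC: mapping cylinders exist -/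
def McStmt : Prop := ∀ (A B : Q3) (φ : D3 A.toO3 B.toO3), ∃ C : Cob A B, Nonempty (Mc C φ.φ)

/-- R-COB: rod cobordisms exist -/
def CobStmt : Prop := ∀ (τ : Tub) (A B : Q3) (w : ℤ → Z2) (hw : IsWd w) (a b : Z2) (f : Fo τ A.toO3 a)
  (g : Fo τ B.toO3 b) (y : ℕ), (∀ n < 0, w n = a) → (∀ n, (y : ℤ) ≤ n → w n = b) →
  ∃ C : Cob A B, Nonempty (Rt C hw.loc f g 0 y)

/-- TH-CNT: countably many classes -/
def CntStmt : Prop := (∀ (A B : Q3) (C : Cob A B), Countable C.L) ∧ ∀ (B : Q3) (C : Cp B), Countable C.L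

/-- the same scene with other caps -/
def Scene.caps (S : Scene) (γ : S.ι → Type) [h : ∀ i, Countable (γ i)] (cap : ∀ {i}, γ i → Cp (S.ob i)) : Scene :=
  { S with γ := γ, cγ := h, cap := cap }

/-- the words of a scene do not depend on the caps -/
def Ex.caps {S : Scene} {τ : Tub} {I : Type} {V : Set I} {v : I → Z2} (X : Ex S τ V v) (γ : S.ι → Type)
    [∀ i, Countable (γ i)] (cap : ∀ {i}, γ i → Cp (S.ob i)) : Ex (S.caps γ cap) τ V v :=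
  ⟨X.ι, X.f, X.c1, X.h1, X.r1, X.c2, X.h2, X.r2⟩

end Crest.Agent.X212.Bor5.T
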