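import Crest.Agent.X212.Bor5.Props
import Crest.Agent.X212.Nrm38.Red

/-!
# Row 212, layer S (helper5): the output of the layer

`SysStmt` (seam: Floer theory and geometry), `CGStmt` (Casson–Gordon) and the level one leaves give all slopes
except `(1/q, -1/q)` and `(2, -2)`.
-/

set_option autoImplicit false

noncomputable section

namespace Crest.Agent.X212.Bor5

open Crest.Agent.X212.Ext52 Crest.Agent.X212.Nrm38

/-- SYS: the system of a knot; cosmetic pairs give isomorphisms -/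
def SysStmt : Prop := ∀ k : KD, ¬k.thick.IsUnknot → ∃ S : Sys, S.NV ∧
  (∀ p q q', Sl p q → Sl p q' → 0 < p → Cos k p q q' → Nonempty (Iso (S.Y p q) (S.Y p q'))) ∧
  ∀ p q s, Sl p q → Sl p s → 0 < p → 0 < s → Cos k p q (-s) → Nonempty (Iso (S.Y p q) (S.Y (-p) s))

/-- CG: the sum of the correction terms of the lens space is an invariant of the filling -/
def CGStmt : Prop := ∀ k : KD,
  (∀ p q q', Sl p q → Sl p q' → 0 < p → Cos k p q q' → Sd p q = Sd p q') ∧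
  ∀ p q s, Sl p q → Sl p s → 0 < p → 0 < s → Cos k p q (-s) → Sd p q = -Sd p s

/-- level one -/
def OutStmt : Prop := ∀ S : Sys, S.NV → Out S

/-- the two families left to layer P -/
def Opp1 : Prop := ∀ k : KD, ¬k.thick.IsUnknot → ∀ q : ℤ, 0 < q → ¬Cos k 1 q (-q)

/-- the pair `(2, -2)` -/
def Opp2 : Prop := ∀ k : KD, ¬k.thick.IsUnknot → ¬Cos k 2 1 (-1)

theorem sam (h1 : SysStmt) (h2 : CGStmt) (h3 : OutStmt) (p : ℤ) (hp : 1 ≤ p) : Sam p := by
  intro k hk q q' hq hlt hpr hc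
  obtain ⟨S, nv, i, -⟩ := h1 k hk
  have a : Sl p q := ⟨by omega, hq, hpr.1⟩
  have b : Sl p q' := ⟨by omega, by omega, hpr.2⟩
  obtain ⟨i⟩ := i p q q' a b hp hc
  exact hlt.ne ((h3 S nv).same p q q' a b hp i ((h2 k).1 p q q' a b hp hc))

theorem opp_red (h1 : SysStmt) (h2 : CGStmt) (h3 : OutStmt) {k : KD} (hk : ¬k.thick.IsUnknot) {p q s : ℤ}
    (hp : 1 ≤ p) (hq : 0 < q) (hs : 0 < s) (hpr : Prim p q (-s)) (hc : Cos k p q (-s)) :
    q = s ∧ (p = 1 ∨ p = 2 ∧ q = 1) := by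
  obtain ⟨S, nv, -, i⟩ := h1 k hk
  have a : Sl p q := ⟨by omega, hq.le, hpr.1⟩
  have b : Sl p s := ⟨by omega, hs.le, by simpa using hpr.2.neg_right⟩
  obtain ⟨i⟩ := i p q s a b hp hs hc
  exact (h3 S nv).opp p q s a b hp hq hs i ((h2 k).2 p q s a b hp hs hc)

theorem opp (h1 : SysStmt) (h2 : CGStmt) (h3 : OutStmt) (o1 : Opp1) (o2 : Opp2) (p : ℤ) (hp : 1 ≤ p) : Opp p := by
  intro k hk q s hs hle hpr hc
  obtain ⟨rfl, rfl | ⟨rfl, rfl⟩⟩ := opp_red h1 h2 h3 hk hp (by omega) hs hpr hc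
  exacts [o1 k hk q hs hc, o2 k hk hc]

/-- MAIN -/
theorem core (h1 : SysStmt) (h2 : CGStmt) (h3 : OutStmt) (o1 : Opp1) (o2 : Opp2) : Skel83.Core :=
  core_of (opp h1 h2 h3 o1 o2) (sam h1 h2 h3)

end Crest.Agent.X212.Bor5
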