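import Crest.Agent.X212.Bor5.Api

/-!
# Row 212, layer S (helper5): finiteness, the value of `ρ`, isomorphisms, non-vanishing
-/

set_option autoImplicit false

open Module Function Filter

noncomputable section

namespace Crest.Agent.X212.Bor5

open Fam (Ch RBij)

namespace Ob

variable {X : Ob} {D : ZMod X.P → ℚ} {k : ℕ}

/-- the exceptional pieces -/
def exc (X : Ob) : Submodule K X.H :=
  ⨆ i : {i : ZMod X.P × ℚ | ¬X.gr i.1 i.2 ≤ K ∙ X.e i.1 i.2}, X.gr i.1.1 i.1.2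

instance : FiniteDimensional K X.exc := by
  have := X.fin.to_subtype
  have := fun i : {i : ZMod X.P × ℚ | ¬X.gr i.1 i.2 ≤ K ∙ X.e i.1 i.2} => X.fd i.1.1 i.1.2
  exact Submodule.finiteDimensional_iSup _

theorem exc_sup_T : X.exc ⊔ X.T = ⊤ := eq_top_iff.2 fun y _ => mem_of_π fun s x => by
  by_cases h : X.gr s x ≤ K ∙ X.e s x
  · exact Submodule.mem_sup_right (span_le_T s x (h (π_mem s x y)))
  · exact Submodule.mem_sup_left (Submodule.mem_iSup_of_mem ⟨(s, x), h⟩ (π_mem s x y))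

theorem map_eq_top {W : Submodule K X.H} (h : X.exc ≤ W) : W.map X.T.mkQ = ⊤ := by
  rw [Submodule.map_mkQ_eq_top, eq_top_iff, ← exc_sup_T, sup_comm]
  exact sup_le_sup_left h _

instance : FiniteDimensional K X.Red := by
  have : FiniteDimensional K (⊤ : Submodule K X.Red) := by
    rw [← map_eq_top le_rfl]
    infer_instance
  exact Submodule.topEquiv.finiteDimensional

theorem exc_le_low (D : ZMod X.P → ℚ) : ∀ᶠ k : ℕ in atTop, X.exc ≤ X.low D k := by
  have := X.fin.to_subtype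
  simp only [exc, iSup_le_iff]
  refine eventually_all.2 fun i => ?_
  obtain ⟨n, hn⟩ := exists_nat_gt ((i.1.2 - D i.1.1) / 2)
  filter_upwards [eventually_ge_atTop n] with k hk
  have : (n : ℚ) ≤ k := Nat.cast_le.2 hk
  exact gr_le_low (by linarith)

/-- above a high level there is only the tower -/
theorem ev_tow (D : ZMod X.P → ℚ) :
    ∀ᶠ k : ℕ in atTop, ∀ s x, D s + 2 * k ≤ x → X.gr s x ≤ K ∙ X.e s x := by
  filter_upwards [exc_le_low D] with k hk s x hx y hy
  by_contra hn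
  have h1 : y ∈ X.exc := Submodule.mem_iSup_of_mem ⟨(s, x), fun h => hn (h hy)⟩ hy
  exact hn (by rw [← π_of_mem hy, mem_low.1 (hk h1) s x hx]; exact Submodule.zero_mem _)

theorem li_e {ι : Type*} (v : ι → ZMod X.P × ℚ) (hv : Injective v) (h : ∀ i, X.e (v i).1 (v i).2 ≠ 0) :
    LinearIndependent K fun i => X.e (v i).1 (v i).2 :=
  (X.ind.comp hv).linearIndependent _ (fun _ => X.e_mem _ _) h

theorem T_inf_low (n : ZMod X.P → ℕ) (h : ∀ s, D s + 2 * k = X.d s + 2 * n s) :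
    X.T ⊓ X.low D k = Submodule.span K (Set.range fun i : Σ s, Fin (n s) => X.e i.1 (X.d i.1 + 2 * (i.2 : ℕ))) := by
  refine le_antisymm (fun y hy => mem_of_π fun s x => ?_) (Submodule.span_le.2 ?_)
  · rcases mem_span_iff.1 (mem_T.1 hy.1 s x) with e | e
    · rw [e]; exact Submodule.zero_mem _
    by_cases e0 : X.π s x y = 0
    · rw [e0]; exact Submodule.zero_mem _
    obtain ⟨i, rfl⟩ := (X.e_ne s x).1 (e ▸ e0)
    have h1 := not_le.1 (mt (mem_low.1 hy.2 s _) e0)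
    rw [h] at h1
    exact Submodule.subset_span ⟨⟨s, i, by exact_mod_cast (by linarith : (i : ℚ) < n s)⟩, e.symm⟩
  · rintro _ ⟨⟨s, i⟩, rfl⟩
    have : ((i : ℕ) : ℚ) < n s := by exact_mod_cast i.2
    exact ⟨e_mem_T _ _, gr_le_low (by rw [h]; linarith) (X.e_mem _ _)⟩

theorem finrank_T_low (n : ZMod X.P → ℕ) (h : ∀ s, D s + 2 * k = X.d s + 2 * n s) :
    finrank K (X.T ⊓ X.low D k : Submodule K X.H) = ∑ s, n s := by
  rw [T_inf_low n h, finrank_span_eq_card, Fintype.card_sigma]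
  · simp
  refine li_e (fun i : Σ s, Fin (n s) => (i.1, X.d i.1 + 2 * (i.2 : ℕ))) ?_ fun i => e_add_ne _ _
  rintro ⟨s, i⟩ ⟨t, j⟩ e
  obtain ⟨rfl, e⟩ := Prod.ext_iff.1 e
  have : ((i : ℕ) : ℚ) = (j : ℕ) := by simp only at e; linarith
  rw [Fin.ext (Nat.cast_injective this)]

instance : FiniteDimensional K (X.low D k) := by
  have h1 : ∀ s, ∃ n : ℕ, D s + 2 * k ≤ X.d s + 2 * n := fun s =>
    let ⟨n, hn⟩ := exists_nat_ge ((D s + 2 * k - X.d s) / 2)
    ⟨n, by linarith⟩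
  choose n hn using h1
  have h2 : FiniteDimensional K (X.T ⊓ X.low (fun s => X.d s + 2 * n s) 0 : Submodule K X.H) := by
    rw [T_inf_low n (by simp)]
    exact FiniteDimensional.span_of_finite _ (Set.finite_range _)
  refine Submodule.finiteDimensional_of_le (S₂ := X.exc ⊔ X.T ⊓ X.low (fun s => X.d s + 2 * n s) 0)
    fun y hy => mem_of_π fun s x => ?_
  by_cases h : X.gr s x ≤ K ∙ X.e s x
  · rcases le_or_gt (D s + 2 * k) x with a | a
    · rw [mem_low.1 hy s x a]; exact Submodule.zero_mem _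
    · exact Submodule.mem_sup_right ⟨span_le_T s x (h (π_mem s x y)),
        gr_le_low (by simpa using a.trans_le (hn s)) (π_mem s x y)⟩
  · exact Submodule.mem_sup_left (Submodule.mem_iSup_of_mem ⟨(s, x), h⟩ (π_mem s x y))

theorem finrank_of_exc {W : Submodule K X.H} [FiniteDimensional K W] (h : X.exc ≤ W) :
    finrank K W = finrank K X.Red + finrank K (X.T ⊓ W : Submodule K X.H) := by
  rw [← LinearMap.finrank_range_add_finrank_ker (X.T.mkQ.domRestrict W), LinearMap.range_domRestrict,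
    map_eq_top h, finrank_top, LinearMap.ker_domRestrict, Submodule.ker_mkQ,
    ← Submodule.finrank_map_subtype_eq, Submodule.map_comap_subtype, inf_comm]

theorem Cg.ev (h : X.Cg D) : ∀ᶠ k : ℕ in atTop, ∃ n : ZMod X.P → ℕ, ∀ s, D s + 2 * k = X.d s + 2 * n s := by
  choose c hc using h
  have : ∀ᶠ k : ℕ in atTop, ∀ s, (c s).natAbs ≤ k := eventually_all.2 fun s => eventually_ge_atTop _
  filter_upwards [this] with k hk
  refine ⟨fun s => (c s + k).toNat, fun s => ?_⟩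
  have h1 : (((c s + k).toNat : ℤ) : ℚ) = (c s + k : ℤ) := by
    rw [Int.toNat_of_nonneg (by have := hk s; omega)]
  push_cast at h1
  rw [hc, h1]; ring

theorem Cg.finrank_low (h : X.Cg D) : ∀ᶠ k : ℕ in atTop,
    (finrank K (X.low D k) : ℚ) = k * X.P + (finrank K X.Red + ∑ s, (D s - X.d s) / 2) := by
  filter_upwards [h.ev, exc_le_low D] with k ⟨n, hn⟩ hk
  rw [finrank_of_exc hk, finrank_T_low n hn]
  push_cast
  rw [Finset.sum_congr rfl fun s _ => (by linarith [hn s] : (n s : ℚ) = k + (D s - X.d s) / 2),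
    Finset.sum_add_distrib]
  simp only [Finset.sum_const, Finset.card_univ, ZMod.card, nsmul_eq_mul]
  ring

theorem Cg.rho_iff (h : X.Cg D) (r : ℤ) : X.Rho D r ↔ (r : ℚ) = finrank K X.Red + ∑ s, (D s - X.d s) / 2 := by
  constructor
  · intro h'
    obtain ⟨k, h1, h2⟩ := (h.finrank_low.and h').exists
    have : ((finrank K (X.low D k) : ℤ) : ℚ) = (k * X.P + r : ℤ) := by rw [h2]
    push_cast at this
    linarith
  · intro e
    filter_upwards [h.finrank_low] with k hk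
    rw [← e] at hk
    exact_mod_cast hk

theorem Cg.exists_rho (h : X.Cg D) : ∃ r, X.Rho D r := by
  choose c hc using id h
  refine ⟨finrank K X.Red + ∑ s, c s, (h.rho_iff _).2 ?_⟩
  push_cast
  exact congrArg _ (Finset.sum_congr rfl fun s _ => by linarith [hc s])

theorem cg_d (X : Ob) : X.Cg X.d := fun _ => ⟨0, by simp⟩

theorem rho_d (X : Ob) : X.Rho X.d (finrank K X.Red) := (X.cg_d.rho_iff _).2 (by simp)

theorem Rho.unique {a b : ℤ} (h : X.Rho D a) (h' : X.Rho D b) : a = b := by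
  obtain ⟨k, h1, h2⟩ := (h.and h').exists
  linarith

theorem Pure.rho (h : X.Pure) : X.Rho X.d 0 := by simpa [(pure_iff X).1 h] using X.rho_d

/-- the reduced part is graded -/
theorem rd_top (X : Ob) : ⨆ i : ZMod X.P × ℚ, X.rd i.1 i.2 = ⊤ := by
  simp only [rd]
  rw [← Submodule.map_iSup, X.top, Submodule.map_top, Submodule.range_mkQ]

/-- projection of the reduced part -/
def πr (X : Ob) (s : ZMod X.P) (x : ℚ) : X.Red →ₗ[K] X.Red := X.T.mapQ X.T (X.π s x) fun _ h => π_mem_T h s x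

theorem πr_of_mem {s : ZMod X.P} {x : ℚ} {y : X.Red} (h : y ∈ X.rd s x) : X.πr s x y = y := by
  obtain ⟨z, hz, rfl⟩ := h
  exact congrArg X.T.mkQ (π_of_mem hz)

theorem πr_of_ne {s c : ZMod X.P} {x x' : ℚ} {y : X.Red} (h : y ∈ X.rd s x) (hn : ¬(s = c ∧ x = x')) :
    X.πr c x' y = 0 := by
  obtain ⟨z, hz, rfl⟩ := h
  exact (congrArg X.T.mkQ (π_of_ne hz hn)).trans (map_zero _)

theorem rd_ind (X : Ob) : iSupIndep fun i : ZMod X.P × ℚ => X.rd i.1 i.2 := fun i => by
  rw [Submodule.disjoint_def]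
  intro y hy hy'
  rw [← πr_of_mem hy]
  clear hy
  refine Submodule.iSup_induction _ (motive := fun y => X.πr i.1 i.2 y = 0) hy' (fun j z hz => ?_) (map_zero _)
    fun a b ha hb => by rw [map_add, ha, hb, add_zero]
  by_cases e : j = i
  · simp only [e, ne_eq, not_true, iSup_false, Submodule.mem_bot] at hz
    rw [hz, map_zero]
  · simp only [ne_eq, e, not_false_eq_true, iSup_pos] at hz
    exact πr_of_ne hz fun k => e (Prod.ext k.1 k.2)

end Ob

open Ob

theorem val : ValStmt := fun _ _ => ⟨inferInstance, fun h => h.rho_iff⟩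

namespace Fam

variable {A B : Ob} (f : Fam A B)

theorem red_mem (κ : ℤ) {x : ℚ} {y : A.Red} (h : y ∈ A.rd (f.s κ) x) : f.red κ y ∈ B.rd (f.t κ) (x + f.dg κ) := by
  obtain ⟨z, hz, rfl⟩ := h
  exact ⟨_, f.map κ x z hz, rfl⟩

theorem red_off (κ : ℤ) {c : ZMod A.P} (hc : c ≠ f.s κ) {x : ℚ} {y : A.Red} (h : y ∈ A.rd c x) : f.red κ y = 0 := by
  obtain ⟨z, hz, rfl⟩ := h
  exact (congrArg B.T.mkQ (f.off κ c x z hc hz)).trans (map_zero _)

/-- only finitely many classes act on the reduced part -/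
theorem red_fin : (support f.red).Finite := by
  obtain ⟨S, hS⟩ := (Submodule.fg_top A.exc).1 (Module.finite_def.1 inferInstance)
  refine (S.finite_toSet.biUnion fun y _ => f.fin y).subset fun κ hκ => ?_
  by_contra hn
  simp only [Set.mem_iUnion, not_exists, mem_support, not_not] at hn
  refine hκ (LinearMap.ext fun y => ?_)
  obtain ⟨z, hz, rfl⟩ := (map_eq_top (le_refl A.exc)).ge (Submodule.mem_top (x := y))
  have : A.exc ≤ LinearMap.ker (f.F κ) := hS ▸ Submodule.span_le.2 fun w hw => hn w hw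
  exact (congrArg B.T.mkQ (this hz)).trans (map_zero _)

theorem rtot_eq : f.rtot = ∑ᶠ κ, f.red κ := by
  refine A.T.linearMap_qext (LinearMap.ext fun y => ?_)
  have h1 : B.T.mkQ (f.tot y) = ∑ᶠ κ, B.T.mkQ (f.F κ y) := map_finsum _ (f.fin y)
  exact h1.trans (map_finsum (LinearMap.applyₗ (A.T.mkQ y)) f.red_fin).symm

end Fam

namespace Iso

variable {X Y : Ob} (i : Iso X Y)

theorem mem {s : ZMod X.P} {x : ℚ} {y : X.H} (h : y ∈ X.gr s x) : i.g y ∈ Y.gr (i.φ s) x :=
  i.map s x ▸ Submodule.mem_map_of_mem h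

theorem U_pow (n : ℕ) (y : X.H) : i.g ((X.U ^ n) y) = (Y.U ^ n) (i.g y) := by
  induction n generalizing y with
  | zero => simp
  | succ n ih => rw [pow_succ, pow_succ, Module.End.mul_apply, Module.End.mul_apply, ih, i.U]

theorem map_e (s : ZMod X.P) (x : ℚ) : i.g (X.e s x) = Y.e (i.φ s) x := by
  obtain ⟨N, hN⟩ := X.exists_top
  obtain ⟨N', hN'⟩ := Y.exists_top
  obtain ⟨n, hn⟩ := exists_nat_ge ((max N N' - x) / 2)
  rw [← U_pow_e _ x n, i.U_pow, ← U_pow_e _ x n]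
  congr 1
  have h1 := le_max_left N N'
  have h2 := le_max_right N N'
  rcases mem_span_iff.1 (hN' _ _ (by linarith) (i.mem (X.e_mem s (x + 2 * n)))) with e | e
  · obtain ⟨z, hz, e'⟩ := (i.map s _).ge (Y.e_mem (i.φ s) (x + 2 * n))
    rcases mem_span_iff.1 (hN _ _ (by linarith) hz) with rfl | rfl
    · rw [e, ← e', map_zero]
    · exact e'
  · exact e

theorem d_eq (s : ZMod X.P) : Y.d (i.φ s) = X.d s := by
  obtain ⟨a, ha⟩ := (Y.e_ne (i.φ s) (X.d s)).1 (by rw [← i.map_e]; simpa using e_d_ne s)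
  obtain ⟨b, hb⟩ := (X.e_ne s (Y.d (i.φ s))).1 fun e => e_d_ne (i.φ s) (by rw [← i.map_e, e, map_zero])
  have : (0 : ℚ) ≤ a := a.cast_nonneg
  have : (0 : ℚ) ≤ b := b.cast_nonneg
  linarith

theorem map_T : X.T.map (i.g : X.H →ₗ[K] Y.H) = Y.T := by
  rw [Ob.T, Ob.T, Submodule.map_span]
  congr 1
  ext y
  constructor
  · rintro ⟨_, ⟨s, x, rfl⟩, rfl⟩
    exact ⟨_, _, i.map_e s x⟩
  · rintro ⟨s, x, rfl⟩
    obtain ⟨s, rfl⟩ := i.φ.surjective s
    exact ⟨_, ⟨s, x, rfl⟩, i.map_e s x⟩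

/-- the induced isomorphism of the reduced parts -/
def red : X.Red ≃ₗ[K] Y.Red := Submodule.Quotient.equiv X.T Y.T i.g i.map_T

theorem map_rd (s : ZMod X.P) (x : ℚ) : (X.rd s x).map (i.red : X.Red →ₗ[K] Y.Red) = Y.rd (i.φ s) x := by
  rw [Ob.rd, Ob.rd, ← i.map, ← Submodule.map_comp, ← Submodule.map_comp]
  rfl

include i in
theorem pure (h : Y.Pure) : X.Pure := (pure_iff X).2 (i.red.finrank_eq.trans ((pure_iff Y).1 h))

end Iso

theorem iso : IsoStmt := fun _ _ i =>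
  ⟨i.d_eq, i.red.finrank_eq, fun s x => by rw [← i.map_rd, LinearEquiv.finrank_map_eq]⟩

/-- a sharp class is injective on the tower -/
theorem Fam.Neg.inj {A B : Ob} {f : Fam A B} (h : f.Neg) {κ : ℤ} (hκ : Ch A B κ)
    (e : B.d (f.t κ) = A.d (f.s κ) + f.dg κ) {x : ℚ} (hx : A.e (f.s κ) x ≠ 0) : f.F κ (A.e (f.s κ) x) ≠ 0 := by
  obtain ⟨k, rfl⟩ := (A.e_ne _ _).1 hx
  rw [h.F_e hκ]
  exact (B.e_ne _ _).2 ⟨k, by linarith⟩

theorem nvs : NvsStmt := by
  rintro X w ⟨hp, hd⟩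
  have h1 : Ch X w.Z 1 := by simp [Ch, w.hX, w.hZ]
  have sub : ∀ s t : ZMod X.P, s = t := by rw [w.hX]; exact Subsingleton.elim
  have inj : ∀ y, w.G.F 1 y = 0 → y = 0 := fun y hy => eq_zero_of_π fun s x => by
    obtain rfl := sub s (w.G.s 1)
    have h2 := w.G.π_F 1 x y
    rw [hy, map_zero] at h2
    rcases hp.eq (π_mem (w.G.s 1) x y) with e | e
    · exact e
    · by_contra hn
      refine w.neg.inj h1 ?_ (e ▸ hn) (e ▸ h2.symm)
      rw [hd, w.pure.2, w.neg.dg, w.hX, w.hZ]; norm_num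
  obtain ⟨n, hn, hmax⟩ := Set.exists_max_image _ (fun n => w.r * n) w.fin (support_nonempty_iff.2 w.ne)
  refine hn (inj _ ?_)
  have : w.ξ (n + w.r) = 0 := by
    by_contra h
    have := hmax _ h
    have := mul_self_pos.2 w.hr
    nlinarith
  rw [w.fold, this, map_zero]

theorem Sys.nv_of (S : Sys) {X : Ob} (w : NVD X) (i : Iso X (S.Y 1 4)) : S.NV := fun h =>
  nvs X w ⟨i.pure h.1, fun s => (i.d_eq s).symm.trans (h.2 _)⟩

end Crest.Agent.X212.Bor5
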