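import Crest.Agent.X212.Bor5.Defs

/-!
# Row 212, layer S (helper5): windows

The theory at the finite levels `m` (`z ∈ S^(2m+1)`), with constants that do not depend on `m`.
`Lim` is the passage to the limit `m → ∞`.
-/

set_option autoImplicit false

open Module Function Filter

noncomputable section

namespace Crest.Agent.X212.Bor5

/-- the homology of one manifold at all levels; `w s` is a lower bound of the degrees, congruent to the tower -/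
structure WOb : Type 1 where
  P : ℕ
  pos : 0 < P
  H : ℕ → Type
  [acg : ∀ m, AddCommGroup (H m)]
  [mdl : ∀ m, Module K (H m)]
  gr : ∀ m, ZMod P → ℚ → Submodule K (H m)
  ind : ∀ m, iSupIndep fun i : ZMod P × ℚ => gr m i.1 i.2
  top : ∀ m, ⨆ i : ZMod P × ℚ, gr m i.1 i.2 = ⊤
  U : ∀ m, H m →ₗ[K] H m
  U_mem : ∀ m s x y, y ∈ gr m s x → U m y ∈ gr m s (x - 2)
  w : ZMod P → ℚ
  lat : ∀ m s x, gr m s x ≠ ⊥ → ∃ k : ℕ, x = w s + k
  dim : ∀ s x, ∃ B : ℕ, ∀ᶠ m in atTop, FiniteDimensional K (gr m s x) ∧ finrank K (gr m s x) ≤ B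
  N : ℕ
  ev : ∀ s (k : ℕ), N ≤ k → Even k → ∀ᶠ m in atTop, finrank K (gr m s (w s + k)) = 1 ∧
    ∀ y ∈ gr m s (w s + k + 2), U m y = 0 → y = 0
  od : ∀ s (k : ℕ), N ≤ k → Odd k → ∀ᶠ m in atTop, gr m s (w s + k) = ⊥

attribute [instance] WOb.acg WOb.mdl

namespace WOb

variable (X : WOb)

/-- degrees at most `a` -/
def le (m : ℕ) (a : ℚ) : Submodule K (X.H m) := ⨆ (s : ZMod X.P) (x : ℚ) (_ : x ≤ a), X.gr m s x

/-- only towers, with bottoms `d` -/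
def Pure (d : ZMod X.P → ℚ) : Prop := ∀ s x,
  ((∃ k : ℕ, x = d s + 2 * k) → ∀ᶠ m in atTop, finrank K (X.gr m s x) = 1 ∧
    ∀ y ∈ X.gr m s (x + 2), X.U m y = 0 → y = 0) ∧
  ((¬∃ k : ℕ, x = d s + 2 * k) → ∀ᶠ m in atTop, X.gr m s x = ⊥)

end WOb

/-- the maps of one cobordism at all levels -/
structure WFam (A B : WOb) where
  F : ∀ m, ℤ → A.H m →ₗ[K] B.H m
  s : ℤ → ZMod A.P
  t : ℤ → ZMod B.P
  dg : ℤ → ℚ
  map : ∀ m κ x y, y ∈ A.gr m (s κ) x → F m κ y ∈ B.gr m (t κ) (x + dg κ)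
  off : ∀ m κ c x y, c ≠ s κ → y ∈ A.gr m c x → F m κ y = 0
  U : ∀ κ a, ∀ᶠ m in atTop, ∀ y ∈ A.le m a, F m κ (A.U m y) = B.U m (F m κ y)
  fin : ∀ m y, (support fun κ => F m κ y).Finite
  ufin : ∀ a, ∃ S : Finset ℤ, ∀ᶠ m in atTop, ∀ κ ∉ S, ∀ y ∈ A.le m a, F m κ y = 0

namespace WFam

variable {A B C : WOb} (f : WFam A B)

/-- the total map at level `m` -/
def tot (m : ℕ) (y : A.H m) : B.H m := ∑ᶠ κ, f.F m κ y

/-- the class `κ` is injective in all high degrees of the window -/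
def Tow (κ : ℤ) : Prop := ∃ N, ∀ x, N ≤ x → ∀ᶠ m in atTop, ∀ y ∈ A.gr m (f.s κ) x, f.F m κ y = 0 → y = 0

/-- the class `κ` is zero in all high degrees of the window -/
def Zer (κ : ℤ) : Prop := ∃ N, ∀ x, N ≤ x → ∀ᶠ m in atTop, ∀ y ∈ A.gr m (f.s κ) x, f.F m κ y = 0

/-- filtered exactness -/
def Ex (g : WFam B C) : Prop := (∀ a, ∀ᶠ m in atTop, ∀ y ∈ A.le m a, g.tot m (f.tot m y) = 0) ∧
  ∀ a, ∃ a', ∀ᶠ m in atTop, ∀ y ∈ B.le m a, g.tot m y = 0 → ∃ z ∈ A.le m a', f.tot m z = y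

end WFam

/-- a graded isomorphism at all large levels -/
structure WIso (X Y : WOb) where
  φ : ZMod X.P ≃ ZMod Y.P
  g : ∀ m, X.H m →ₗ[K] Y.H m
  map : ∀ m s x y, y ∈ X.gr m s x → g m y ∈ Y.gr m (φ s) x
  bij : ∀ s x, ∀ᶠ m in atTop, Set.BijOn (g m) (X.gr m s x) (Y.gr m (φ s) x)
  U : ∀ a, ∀ᶠ m in atTop, ∀ y ∈ X.le m a, g m (X.U m y) = Y.U m (g m y)

/-- transport of classes along an equation of orders -/
def cc {a b : ℕ} (h : a = b) : ZMod a ≃ ZMod b := (ZMod.ringEquivCongr h).toEquiv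

/-- the limit: objects, elements, maps, and the transfer of all identities -/
structure Lim : Type 1 where
  ob : WOb → Ob
  hP : ∀ X, (ob X).P = X.P
  pure : ∀ X d, X.Pure d → (ob X).Pure ∧ ∀ s, (ob X).d s = d (cc (hP X) s)
  iso : ∀ X Y, WIso X Y → Nonempty (Iso (ob X) (ob Y))
  /-- a sequence of bounded degree defines an element -/
  el : ∀ X : WOb, (∀ m, X.H m) → (ob X).H
  el_ne : ∀ (X : WOb) (y : ∀ m, X.H m) a, (∀ᶠ m in atTop, y m ∈ X.le m a ∧ y m ≠ 0) → el X y ≠ 0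
  el_congr : ∀ (X : WOb) (y y' : ∀ m, X.H m), (∀ᶠ m in atTop, y m = y' m) → el X y = el X y'
  el_zero : ∀ X : WOb, el X 0 = 0
  el_add : ∀ (X : WOb) (y y' : ∀ m, X.H m) a, (∀ᶠ m in atTop, y m ∈ X.le m a ∧ y' m ∈ X.le m a) →
    el X (y + y') = el X y + el X y'
  fam : ∀ {A B}, WFam A B → Fam (ob A) (ob B)
  hs : ∀ {A B} (f : WFam A B) κ, cc (hP A) ((fam f).s κ) = f.s κ
  ht : ∀ {A B} (f : WFam A B) κ, cc (hP B) ((fam f).t κ) = f.t κ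
  hdg : ∀ {A B} (f : WFam A B), (fam f).dg = f.dg
  F_el : ∀ {A B} (f : WFam A B) κ (y : ∀ m, A.H m) a, (∀ᶠ m in atTop, y m ∈ A.le m a) →
    (fam f).F κ (el A y) = el B fun m => f.F m κ (y m)
  surj : ∀ (X : WOb) (z : (ob X).H), ∃ y a, (∀ m, y m ∈ X.le m a) ∧ el X y = z
  tow : ∀ {A B} (f : WFam A B) κ, f.Tow κ → (∃ k : ℤ, B.w (f.t κ) = A.w (f.s κ) + f.dg κ + 2 * k) →
    ∃ N, ∀ x, N ≤ x → (fam f).F κ ((ob A).e ((fam f).s κ) x) = (ob B).e ((fam f).t κ) (x + f.dg κ)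
  zer : ∀ {A B} (f : WFam A B) κ, f.Zer κ → ∃ N, ∀ x, N ≤ x → (fam f).F κ ((ob A).e ((fam f).s κ) x) = 0
  ex : ∀ {A B C} (f : WFam A B) (g : WFam B C), f.Ex g → Exact (fam f).tot (fam g).tot

/-- LIM -/
def LimStmt : Prop := Nonempty Lim

end Crest.Agent.X212.Bor5
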